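import Vale.Agent.P174.ZSide
import Mathlib.GroupTheory.Coprod.Basic
import Mathlib.GroupTheory.SemidirectProduct

/-! No spherical diagram has a nontrivial involution as its only boundary label. -/

namespace Vale.Agent.P174

open scoped Matrix
open Monoid

section Free

variable {G J : Type*} [Group G]

/-- A coefficient followed by an optional variable. -/
def letter (g : G) (o : Option (J × Bool)) : Coprod G (FreeGroup J) :=
  Coprod.inl g * lt (fun j => Coprod.inr (FreeGroup.of j)) o

lemma map_lt {X H H' F : Type*} [Group H] [Group H'] [FunLike F H H'] [MonoidHomClass F H H']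
    (f : F) (φ : X → H) (o : Option (X × Bool)) : f (lt φ o) = lt (fun x => f (φ x)) o := by
  rcases o with _ | ⟨x, _ | _⟩ <;> simp [lt]

/-- Translation action on the free group on `G × J`. -/
def act (G J : Type*) [Group G] : G →* MulAut (FreeGroup (G × J)) where
  toFun g := FreeGroup.freeGroupCongr ((Equiv.mulLeft g).prodCongr (Equiv.refl J))
  map_one' := MulEquiv.toMonoidHom_injective (FreeGroup.ext_hom _ _ fun a => by simp)
  map_mul' g h := MulEquiv.toMonoidHom_injective (FreeGroup.ext_hom _ _ fun a => by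
    simp [Prod.map, mul_assoc])

lemma act_of (g h : G) (j : J) : act G J g (FreeGroup.of (h, j)) = FreeGroup.of (g * h, j) := rfl

lemma free_of_word (lab : ℕ → G) (mk : ℕ → Option (J × Bool)) (n : ℕ) {g : G}
    (h : pre (fun p => letter (lab p) (mk p)) n = Coprod.inl g) : pre lab n = g ∧
    pre (fun p => lt FreeGroup.of ((mk p).map fun t => ((pre lab (p + 1), t.1), t.2))) n = 1 := by
  let ψ : Coprod G (FreeGroup J) →* FreeGroup (G × J) ⋊[act G J] G :=
    Coprod.lift SemidirectProduct.inr
      (FreeGroup.lift fun j => SemidirectProduct.inl (FreeGroup.of (1, j)))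
  have key : ∀ n, ψ (pre (fun p => letter (lab p) (mk p)) n) = ⟨pre (fun p => lt FreeGroup.of
      ((mk p).map fun t => ((pre lab (p + 1), t.1), t.2))) n, pre lab n⟩ := by
    intro n
    induction n with
    | zero => exact map_one ψ
    | succ n ih =>
      have e1 : ∀ g, ψ (Coprod.inl g) = SemidirectProduct.inr g := fun _ => rfl
      have e2 : ∀ j, ψ (Coprod.inr (FreeGroup.of j)) =
        SemidirectProduct.inl (FreeGroup.of (1, j)) := fun j => FreeGroup.lift_apply_of
      rw [pre, map_mul, ih, letter, map_mul, map_lt, e1, pre.eq_2 _ n]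
      generalize pre (fun p => lt FreeGroup.of
        ((mk p).map fun t => ((pre lab (p + 1), t.1), t.2))) n = w
      simp only [e2]
      rcases mk n with _ | ⟨x, _ | _⟩ <;> ext <;>
        simp [lt, pre, act_of, -SemidirectProduct.mk_eq_inl_mul_inr]
  have := (key n).symm.trans (congrArg ψ h)
  exact ⟨congrArg SemidirectProduct.right this, congrArg SemidirectProduct.left this⟩

end Free

theorem core {G C κ P J : Type*} [Group G] [Fintype C] [DecidableEq C] [Fintype κ] [DecidableEq κ]
    [Fintype P] [DecidableEq P] [Fintype J] [DecidableEq J] [Nonempty κ]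
    (O : Cyc C) (hn : Fintype.card C = O.n) (lab : ℕ → G) (mk : ℕ → Option (J × Bool)) {g : G}
    (g1 : g ≠ 1) (g2 : g * g = 1) (hw : pre (fun p => letter (lab p) (mk p)) O.n = Coprod.inl g)
    {b : P → κ → C} (hb : ∀ p a p' a', b p a = b p' a' → p = p' ∧ a = a') (idx : P → J × Bool)
    {t ρ : C → C} (t1 : ∀ c, t (t c) = c) (t2 : ∀ c, t c ≠ c)
    (t3 : ∀ c, lab (O.pos (t c)) = (lab (O.pos c))⁻¹)
    (t4 : ∀ p x x', lab (O.pos (b p x)) = lab (O.pos (b p x')))
    {bar : P → P} (t5 : ∀ p x, t (b p x) = b (bar p) x) (t6 : ∀ p, idx (bar p) = inv (idx p))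
    (r1 : ∀ c, ρ (ρ c) = c) (r2 : ∀ c, mk (O.pos c) ≠ none → ρ c = c)
    {a : C → C} (a0 : ∀ c, a c = t (O.σ (ρ c))) (a1 : ∀ c, a (a c) = c)
    {bar' : P → P} (a2 : ∀ p x, a (b p x) = b (bar' p) x) (a3 : ∀ p, idx (bar' p) = inv (idx p))
    (a4 : ∀ c, mk (O.pos (a c)) = (mk (O.pos c)).map inv)
    {mb : P → Option (J × Bool)} (a5 : ∀ p x, mk (O.pos (b p x)) = mb p) {d : ℕ} (hd : 0 < d)
    (c1 : ∀ j i, (Finset.univ.filter fun p => idx p = (i, true) ∧ mb p = some (j, true)).card =
      (Finset.univ.filter fun p => idx p = (i, true) ∧ mb p = some (j, false)).card +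
        if i = j then d else 0)
    (c2 : (Finset.univ.filter fun c => ρ c ≠ c).card + 2 ≤
      (Finset.univ.filter fun c => a c = c).card + 4 * (Fintype.card J * Fintype.card κ)) :
    False := by
  obtain ⟨rfl, hf⟩ := free_of_word lab mk O.n hw
  obtain ⟨π, p1, p2, p3, W, w1, w2⟩ := pairing O _ hf
  set m : C → Option (J × Bool) := fun c => mk (O.pos c) with hm
  have q3 : ∀ c, m c = none → π c = c := fun c h => p3 c (by simpa using h)
  have q2 : ∀ c, m (π c) = (m c).map inv ∧ pre lab (O.pos (π c) + 1) = pre lab (O.pos c + 1) := by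
    intro c
    have := p2 c
    rcases h : m c with _ | s
    · rw [q3 c h]; simp [h]
    · simp only [hm] at h ⊢
      rcases h' : mk (O.pos (π c)) with _ | s'
      · simp [h, h'] at this
      · simp only [h, h', Option.map_some, inv, Option.some.injEq, Prod.mk.injEq] at this
        exact ⟨congrArg some (Prod.ext this.1.2 this.2), this.1.1⟩
  have r3 : ∀ c, m (ρ c) = m c := fun c => by
    by_cases h : m c = none
    · by_contra h'
      have := r2 (ρ c) (by rwa [h] at h')
      rw [r1] at this
      exact h' (by rw [← this])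
    · rw [r2 c h]
  have r4 : ∀ c, ρ (π c) = π (ρ c) ∧ (π c = c ∧ π (ρ c) = ρ c ∨ ρ c = c) := fun c => by
    by_cases h : m c = none
    · simp [q3 c h, q3 (ρ c) ((r3 c).trans h)]
    · rw [r2 c h, r2 (π c) (by change m _ ≠ _; rw [(q2 c).1]; simpa using h)]; simp
  set R : Matrix C C ℂ := mono ρ fun _ => 1 with hR
  have s1 : Rᴴ = R := by simp [hR, mono_star r1 r1]
  have s2 : R * R = 1 := by rw [hR, mono_mul_mono]; exact mono_eq_one r1 (by simp)
  have s3 : R * phm O π = phm O π * R := by
    rw [hR, phm, mono_mul_mono, mono_mul_mono]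
    congr 1 <;> funext c
    · exact (r4 c).1.symm
    · rcases (r4 c).2 with h | h <;> simp [h]
  have b1 : (phm O π * R)ᴴ = phm O π * R := by rw [Matrix.conjTranspose_mul, s1, phm_star O p1, s3]
  obtain ⟨τ, hτ, e, e1, e2, e3, e4⟩ := zside hb m a1 a2 a3 a4 a5 hd c1 b1
    (by rw [mul_assoc, ← mul_assoc R, s3, mul_assoc, s2, mul_one, phm_sq O p1]) fun c c' h => by
      by_cases e : c' = ρ (π c)
      · rw [e, r3, (q2 c).1]
      · rw [hR, phm, mono_mul_mono] at h
        simp [mono, e] at h
  obtain ⟨u1, u2, u3⟩ := herm hb t1 t5 t6 hτ rfl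
  obtain ⟨v1, -, -⟩ := herm hb a1 a2 a3 hτ rfl
  set U := blkU Finset.univ b fun p => sgn τ (idx p) with hU
  have hz : phm O π * mono O.σ (fun _ => 1) * (mono t (fun _ => 1) * U) =
      phm O π * R * (mono a (fun _ => 1) * U) := by
    rw [mul_assoc, mul_assoc, ← mul_assoc (mono O.σ _) _ U, ← mul_assoc R _ U, hR, mono_mul_mono,
      mono_mul_mono]
    simp only [a0, r1]
  refine uside O hn lab g1 g2 p1 (fun c => (q2 c).2) W w1 u1 u2 (fun c => by simp [u3, t2])
    (fun c c' h => ?_) (fun k => by rw [hz, im_trace_herm b1 v1]) e1 e2 (by rw [hz, e3]) ?_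
  · rw [mono_mul, one_mul] at h
    rw [← t3]
    rcases blkU_apply (b := b) Finset.univ (fun p => sgn τ (idx p)) (t c) c' with
      e | ⟨p, x, x', e, rfl⟩
    · by_cases e' : t c = c'
      · rw [e']
      · exact absurd (e.trans (if_neg e')) h
    · rw [e, t4]
  · rw [chi_trace m none _ (fun c => ρ c = c) fun c h => by
      rw [hR, phm, mono_mul_mono]
      simp [mono, q3 c h, eq_comm]] at e4
    have k1 : (Finset.univ.filter fun c => m c = none ∧ a c = c) =
        Finset.univ.filter fun c => a c = c := by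
      refine Finset.filter_congr fun c _ => and_iff_right_of_imp fun h => ?_
      have := a4 c
      rw [h] at this
      rcases h' : mk (O.pos c) with _ | s
      · exact h'
      · rw [h'] at this
        exact absurd (Option.some.inj this).symm (inv_ne s)
    have k2 : O.n ≤ (Finset.univ.filter fun c => (m c).isSome).card +
        (Finset.univ.filter fun c => m c = none ∧ ρ c = c).card +
        (Finset.univ.filter fun c => ρ c ≠ c).card := by
      rw [← hn, ← Finset.card_univ]
      refine (Finset.card_le_card fun c _ => ?_).trans ((Finset.card_union_le _ _).trans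
        (Nat.add_le_add_right (Finset.card_union_le _ _) _))
      rcases h : m c with _ | s <;> by_cases h' : ρ c = c <;> simp [h, h']
    simp only [Option.isSome_map] at w2
    rw [k1] at e4
    have k3 := (Nat.cast_le (α := ℝ)).mpr k2
    have k4 := (Nat.cast_le (α := ℝ)).mpr w2
    have k5 := (Nat.cast_le (α := ℝ)).mpr c2
    push_cast at k3 k4 k5
    linarith

end Vale.Agent.P174
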