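import Mathlib.GroupTheory.Coprod.Basic
import Mathlib.GroupTheory.FreeGroup.Basic
import Mathlib.Algebra.Group.Pi.Lemmas
import Mathlib.Algebra.Group.TypeTags.Basic

namespace Vale.Agent.P174

/-- The exponent-sum vector of `w` in `G * F_n`: the image of `w` under the homomorphism to
`ℤ^n` that kills `G` and sends the `j`-th free generator to the `j`-th unit vector. -/
def expSum {G : Type*} [Group G] {n : ℕ} (w : Monoid.Coprod G (FreeGroup (Fin n))) : Fin n → ℤ :=
  Multiplicative.toAdd (Monoid.Coprod.lift (1 : G →* Multiplicative (Fin n → ℤ))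
    (FreeGroup.lift fun j : Fin n => Multiplicative.ofAdd (Pi.single j (1 : ℤ))) w)

end Vale.Agent.P174
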