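import Mathlib.Analysis.Calculus.VectorField
import Mathlib.Analysis.Calculus.ParametricIntegral
import Mathlib.Analysis.Calculus.FDeriv.Analytic
import Mathlib.Analysis.Calculus.ContDiff.FTaylorSeries
import Mathlib.Analysis.Calculus.MeanValue
import Mathlib.Analysis.SpecialFunctions.Exponential
import Mathlib.Topology.Algebra.Star.Unitary
import Mathlib.Topology.Instances.Matrix
import Mathlib.MeasureTheory.Group.Integral
import Mathlib.LinearAlgebra.Matrix.Adjugate

/-! Homotopy invariance of a degree-type integral over a compact unitary group. -/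

namespace Vale.Agent.P174

open MeasureTheory Function

section Alg

variable {ι : Type*} [Fintype ι] [DecidableEq ι]

/-- The determinant as a continuous multilinear map of the rows. -/
noncomputable def detM (ι : Type*) [Fintype ι] [DecidableEq ι] :
    ContinuousMultilinearMap ℝ (fun _ : ι => ι → ℝ) ℝ where
  toMultilinearMap := (Matrix.detRowAlternating : (ι → ℝ) [⋀^ι]→ₗ[ℝ] ℝ).toMultilinearMap
  cont := Continuous.matrix_det (A := fun v : ι → ι → ℝ => Matrix.of v) continuous_id

lemma detM_eq (v : ι → ι → ℝ) :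
    detM ι v = (Matrix.detRowAlternating : (ι → ℝ) [⋀^ι]→ₗ[ℝ] ℝ) v := rfl

lemma detM_det (v : ι → ι → ℝ) : detM ι v = (Matrix.of v).det := rfl

lemma cramer_lin (v : ι → ι → ℝ) (v0 : ι → ℝ) (lam : (ι → ℝ) →ₗ[ℝ] ℝ) :
    lam v0 * detM ι v = ∑ a, lam (v a) * detM ι (update v a v0) := by
  have h := Matrix.mulVec_cramer (Matrix.of v).transpose v0
  rw [Matrix.det_transpose] at h
  have h2 : (Matrix.of v).det • v0 = ∑ a, detM ι (update v a v0) • v a := by
    rw [← h]
    funext e
    simp only [Matrix.mulVec, dotProduct, Matrix.cramer_transpose_apply, Finset.sum_apply,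
      Pi.smul_apply, smul_eq_mul, Matrix.transpose_apply, Matrix.of_apply]
    exact Finset.sum_congr rfl fun a _ => mul_comm _ _
  have h3 := congrArg lam h2
  rw [map_smul, map_sum] at h3
  simp only [map_smul, smul_eq_mul] at h3
  rw [detM_det, mul_comm, h3]
  exact Finset.sum_congr rfl fun a _ => mul_comm _ _

lemma antisym_cancel (v : ι → ι → ℝ) (v0 : ι → ℝ) (S : ι → ι → ι → ℝ)
    (hS : ∀ a b, a ≠ b → ∃ c : ι → ℝ, c a = 0 ∧ c b = 0 ∧ S a b - S b a = ∑ e, c e • v e) :
    ∑ a, ∑ b, (if b = a then 0 else detM ι (update (update v a v0) b (S a b))) = 0 := by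
  set t : ι → ι → ℝ := fun a b => if b = a then 0 else detM ι (update (update v a v0) b (S a b))
  have key : ∀ a b, t a b + t b a = 0 := by
    intro a b
    by_cases hab : b = a
    · simp [t, hab]
    have hab' : a ≠ b := fun h => hab h.symm
    simp only [t, if_neg hab, if_neg hab']
    have e1 : update (update v b v0) a (S b a) =
        (update (update v a v0) b (S b a)) ∘ Equiv.swap a b := by
      funext e
      by_cases h1 : e = a
      · subst h1; simp
      by_cases h2 : e = b
      · subst h2; simp [update_of_ne h1, update_of_ne hab']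
      · simp [update_of_ne h1, update_of_ne h2, Equiv.swap_apply_of_ne_of_ne h1 h2]
    rw [e1, detM_eq, detM_eq, AlternatingMap.map_swap _ _ hab', ← sub_eq_add_neg,
      ← AlternatingMap.map_update_sub]
    obtain ⟨c, ha, hb, hc⟩ := hS a b hab'
    rw [hc, AlternatingMap.map_update_sum]
    refine Finset.sum_eq_zero fun e _ => ?_
    rw [AlternatingMap.map_update_smul]
    by_cases h1 : e = a
    · simp [h1, ha]
    by_cases h2 : e = b
    · simp [h2, hb]
    have : v e = update v a v0 e := by rw [update_of_ne h1]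
    rw [this, AlternatingMap.map_update_self _ _ (Ne.symm h2), smul_zero]
  have h2 : ∑ a, ∑ b, t a b + ∑ a, ∑ b, t a b = 0 := by
    conv_lhs => congr; rfl; rw [Finset.sum_comm]
    simp only [← Finset.sum_add_distrib, key, Finset.sum_const_zero]
  linarith

lemma alg (v : ι → ι → ℝ) (v0 : ι → ℝ) (S0 : ι → ι → ℝ) (S : ι → ι → ι → ℝ)
    (hS : ∀ a b, a ≠ b → ∃ c : ι → ℝ, c a = 0 ∧ c b = 0 ∧ S a b - S b a = ∑ e, c e • v e)
    (lam : (ι → ℝ) →ₗ[ℝ] ℝ) (g : ℝ) :
    lam v0 * detM ι v + g * ∑ b, detM ι (update v b (S0 b)) =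
      ∑ a, (lam (v a) * detM ι (update v a v0) +
        g * ∑ b, detM ι (update (update v a v0) b (if b = a then S0 a else S a b))) := by
  rw [Finset.sum_add_distrib, ← cramer_lin, ← Finset.mul_sum]
  congr 2
  have : ∀ a, ∑ b, detM ι (update (update v a v0) b (if b = a then S0 a else S a b)) =
      detM ι (update v a (S0 a)) +
        ∑ b, (if b = a then 0 else detM ι (update (update v a v0) b (S a b))) := by
    intro a
    have : ∀ b, detM ι (update (update v a v0) b (if b = a then S0 a else S a b)) =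
        (if b = a then detM ι (update v a (S0 a)) else 0) +
        (if b = a then 0 else detM ι (update (update v a v0) b (S a b))) := by
      intro b
      by_cases h : b = a
      · subst h; simp
      · simp [h]
    simp only [this, Finset.sum_add_distrib, Finset.sum_ite_eq', Finset.mem_univ, if_true]
  simp only [this, Finset.sum_add_distrib, antisym_cancel v v0 S hS, add_zero]

variable {P : Type*} [NormedAddCommGroup P] [NormedSpace ℝ P]

lemma fderiv_detM (v : ι → P → ι → ℝ) (p w : P) (hv : ∀ b, DifferentiableAt ℝ (v b) p) :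
    fderiv ℝ (fun q => detM ι fun b => v b q) p w =
      ∑ b, detM ι (update (fun b => v b p) b (fderiv ℝ (v b) p w)) := by
  have h1 : HasFDerivAt (fun q b => v b q)
      (ContinuousLinearMap.pi fun b => fderiv ℝ (v b) p) p :=
    hasFDerivAt_pi.mpr fun b => (hv b).hasFDerivAt
  have h2 := ((detM ι).hasFDerivAt (fun b => v b p)).comp p h1
  have h3 := h2.fderiv
  have : (fun q => detM ι fun b => v b q) = detM ι ∘ fun q b => v b q := rfl
  rw [this, h3]
  simp

lemma contDiff_detM (v : ι → P → ι → ℝ) (hv : ∀ b, ContDiff ℝ 1 (v b)) :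
    ContDiff ℝ 1 fun q => detM ι fun b => v b q :=
  (detM ι).contDiff.comp (contDiff_pi.mpr hv)

end Alg

section Int

variable {K : Type*} [TopologicalSpace K] [CompactSpace K] [MeasurableSpace K] [BorelSpace K]
  (μ : Measure K) [IsFiniteMeasure μ]

lemma integrable_cont {F : K → ℝ} (hF : Continuous F) : Integrable F μ :=
  hF.integrable_of_hasCompactSupport (HasCompactSupport.of_compactSpace F)

lemma hasDerivAt_int {F F' : ℝ → K → ℝ} (hF : ∀ t, Continuous (F t))
    (hF' : Continuous (uncurry F')) (h : ∀ t x, HasDerivAt (F · x) (F' t x) t) (t0 : ℝ) :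
    HasDerivAt (fun t => ∫ x, F t x ∂μ) (∫ x, F' t0 x ∂μ) t0 := by
  have hc : IsCompact (Metric.closedBall t0 1 ×ˢ (Set.univ : Set K)) :=
    (isCompact_closedBall t0 1).prod isCompact_univ
  obtain ⟨C, hC⟩ := hc.exists_bound_of_continuousOn hF'.continuousOn
  refine (hasDerivAt_integral_of_dominated_loc_of_deriv_le (bound := fun _ => C)
    (Metric.closedBall_mem_nhds t0 one_pos)
    (Filter.Eventually.of_forall fun t => (integrable_cont μ (hF t)).aestronglyMeasurable)
    (integrable_cont μ (hF t0))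
    (integrable_cont μ (hF'.comp (Continuous.prodMk_right t0))).aestronglyMeasurable
    (Filter.Eventually.of_forall fun x t ht => hC (t, x) ⟨ht, trivial⟩) (integrable_const C)
    (Filter.Eventually.of_forall fun x t _ => h t x)).2

end Int

section Deg

variable {A : Type*} [NormedRing A] [NormedAlgebra ℝ A] [StarRing A] [ContinuousStar A]
  [StarModule ℝ A] [CompleteSpace A] [CompactSpace (unitary A)]
  [MeasurableSpace (unitary A)] [BorelSpace (unitary A)]
  (μ : Measure (unitary A)) [IsFiniteMeasure μ] [μ.IsMulLeftInvariant]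

omit [ContinuousStar A] [StarModule ℝ A] [CompleteSpace A] [μ.IsMulLeftInvariant] in
lemma hasDerivAt_time {φ : ℝ × A → ℝ} (hφ : ContDiff ℝ 1 φ) (s : ℝ) :
    HasDerivAt (fun s => ∫ x : unitary A, φ (s, x) ∂μ)
      (∫ x : unitary A, fderiv ℝ φ (s, x) (1, 0) ∂μ) s := by
  refine hasDerivAt_int μ (F := fun t x => φ (t, x))
    (F' := fun t x => fderiv ℝ φ (t, x) (1, 0)) (fun t => ?_) ?_ (fun t x => ?_) s
  · exact hφ.continuous.comp (continuous_const.prodMk continuous_subtype_val)
  · exact ((hφ.continuous_fderiv one_ne_zero).comp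
      (continuous_fst.prodMk (continuous_subtype_val.comp continuous_snd))).clm_apply
      continuous_const
  · exact (hφ.differentiable one_ne_zero _).hasFDerivAt.comp_hasDerivAt t
      ((hasDerivAt_id t).prodMk (hasDerivAt_const t (x : A)))

lemma int_field_zero {φ : ℝ × A → ℝ} (hφ : ContDiff ℝ 1 φ) (s : ℝ) {ξ : A}
    (hξ : star ξ = -ξ) : ∫ x : unitary A, fderiv ℝ φ (s, x) (0, ξ * x) ∂μ = 0 := by
  let : NormedAlgebra ℚ A := NormedAlgebra.restrictScalars ℚ ℝ A
  have hd : ∀ t : ℝ, HasDerivAt (fun u : ℝ => NormedSpace.exp (u • ξ))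
      (ξ * NormedSpace.exp (t • ξ)) t := fun t => hasDerivAt_exp_smul_const' ξ t
  have hc : Continuous fun u : ℝ => NormedSpace.exp (u • ξ) :=
    continuous_iff_continuousAt.mpr fun t => (hd t).continuousAt
  have hu : ∀ t : ℝ, NormedSpace.exp (t • ξ) ∈ unitary A := fun t =>
    NormedSpace.exp_mem_unitary_of_mem_skewAdjoint (by
      rw [skewAdjoint.mem_iff, star_smul, hξ]; simp)
  have h1 := hasDerivAt_int μ (F := fun t x => φ (s, NormedSpace.exp (t • ξ) * x))
    (F' := fun t x => fderiv ℝ φ (s, NormedSpace.exp (t • ξ) * x)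
      (0, ξ * NormedSpace.exp (t • ξ) * x)) (fun t => ?_) ?_ (fun t x => ?_) 0
  · have h2 : (fun t : ℝ => ∫ x : unitary A, φ (s, NormedSpace.exp (t • ξ) * x) ∂μ) =
        fun _ => ∫ x : unitary A, φ (s, x) ∂μ := by
      funext t
      exact integral_mul_left_eq_self (fun x : unitary A => φ (s, x)) ⟨_, hu t⟩
    rw [h2] at h1
    have := h1.unique (hasDerivAt_const _ _)
    simpa using this
  · exact hφ.continuous.comp
      (continuous_const.prodMk (continuous_const.mul continuous_subtype_val))
  · refine ((hφ.continuous_fderiv one_ne_zero).comp (continuous_const.prodMk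
      ((hc.comp continuous_fst).mul (continuous_subtype_val.comp continuous_snd)))).clm_apply ?_
    exact continuous_const.prodMk ((continuous_const.mul (hc.comp continuous_fst)).mul
      (continuous_subtype_val.comp continuous_snd))
  · exact (hφ.differentiable one_ne_zero _).hasFDerivAt.comp_hasDerivAt t
      ((hasDerivAt_const t s).prodMk ((hd t).mul_const (x : A)))

variable {ι : Type*} [Fintype ι] [DecidableEq ι]

/-- The Jacobian of `f` along the right-invariant fields `ξ a`. -/
noncomputable def jac (ξ : ι → A) (f : ℝ × A → ι → ℝ) (p : ℝ × A) : ℝ :=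
  detM ι fun a => fderiv ℝ f p (0, ξ a * p.2)

theorem deg (ξ : ι → A) (hξ : ∀ a, star (ξ a) = -ξ a) {f : ℝ × A → ι → ℝ} {g : ℝ × A → ℝ}
    (hf : ContDiff ℝ 2 f) (hg : ContDiff ℝ 1 g)
    (h1 : ∀ (s : ℝ) (x : unitary A), ∃ lam : (ι → ℝ) →ₗ[ℝ] ℝ,
      fderiv ℝ g (s, x) (1, 0) = lam (fderiv ℝ f (s, x) (1, 0)) ∧
      ∀ a, fderiv ℝ g (s, x) (0, ξ a * x) = lam (fderiv ℝ f (s, x) (0, ξ a * x)))
    (h2 : ∀ (s : ℝ) (x : unitary A) (a b : ι), a ≠ b → ∃ c : ι → ℝ, c a = 0 ∧ c b = 0 ∧
      fderiv ℝ f (s, x) (0, (ξ b * ξ a - ξ a * ξ b) * x) =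
        ∑ e, c e • fderiv ℝ f (s, x) (0, ξ e * x)) (s t : ℝ) :
    ∫ x : unitary A, g (s, x) * jac ξ f (s, x) ∂μ =
      ∫ x : unitary A, g (t, x) * jac ξ f (t, x) ∂μ := by
  set Z : ι → ℝ × A → ℝ × A := fun a p => (0, ξ a * p.2) with hZ
  set Z0 : ℝ × A → ℝ × A := fun _ => (1, 0) with hZ0
  have hZd : ∀ a p, HasFDerivAt (Z a) ((0 : ℝ × A →L[ℝ] ℝ).prod
      ((ContinuousLinearMap.mul ℝ A (ξ a)).comp (ContinuousLinearMap.snd ℝ ℝ A))) p :=
    fun a p => (hasFDerivAt_const _ _).prodMk
      (((ContinuousLinearMap.mul ℝ A (ξ a)).comp (ContinuousLinearMap.snd ℝ ℝ A)).hasFDerivAt)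
  have hZc : ∀ a, ContDiff ℝ 1 (Z a) := fun a =>
    contDiff_const.prodMk (contDiff_const.mul contDiff_snd)
  set v : ι → ℝ × A → ι → ℝ := fun a p => fderiv ℝ f p (Z a p) with hv
  set v0 : ℝ × A → ι → ℝ := fun p => fderiv ℝ f p (Z0 p) with hv0
  have hf' : ContDiff ℝ 1 (fderiv ℝ f) := hf.fderiv_right (by norm_num)
  have hvc : ∀ a, ContDiff ℝ 1 (v a) := fun a => hf'.clm_apply (hZc a)
  have hv0c : ContDiff ℝ 1 v0 := hf'.clm_apply contDiff_const
  have hwc : ∀ a b, ContDiff ℝ 1 (update v a v0 b) := fun a b => by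
    by_cases h : b = a
    · subst h; simpa using hv0c
    · rw [update_of_ne h]; exact hvc b
  set φ0 : ℝ × A → ℝ := fun p => g p * detM ι fun b => v b p with hφ0
  set φ : ι → ℝ × A → ℝ := fun a p => g p * detM ι fun b => update v a v0 b p with hφ
  have hφ0c : ContDiff ℝ 1 φ0 := hg.mul (contDiff_detM v hvc)
  have hφc : ∀ a, ContDiff ℝ 1 (φ a) := fun a => hg.mul (contDiff_detM _ (hwc a))
  have dmul : ∀ (W : ι → ℝ × A → ι → ℝ), (∀ b, ContDiff ℝ 1 (W b)) → ∀ p w,
      fderiv ℝ (fun p => g p * detM ι fun b => W b p) p w =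
        fderiv ℝ g p w * detM ι (fun b => W b p) +
          g p * ∑ b, detM ι (update (fun b => W b p) b (fderiv ℝ (W b) p w)) := by
    intro W hW p w
    rw [fderiv_fun_mul (hg.differentiable one_ne_zero p)
      ((contDiff_detM W hW).differentiable one_ne_zero p)]
    simp only [add_apply, smul_apply, smul_eq_mul]
    rw [fderiv_detM W p w fun b => (hW b).differentiable one_ne_zero p]
    ring
  have key : ∀ (r : ℝ) (x : unitary A), fderiv ℝ φ0 (r, x) (1, 0) =
      ∑ a, fderiv ℝ (φ a) (r, x) (0, ξ a * x) := by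
    intro r x
    obtain ⟨lam, hl0, hl⟩ := h1 r x
    have br : ∀ V W : ℝ × A → ℝ × A, DifferentiableAt ℝ V (r, x) → DifferentiableAt ℝ W (r, x) →
        fderiv ℝ f (r, x) (VectorField.lieBracket ℝ V W (r, x)) =
          fderiv ℝ (fun p => fderiv ℝ f p (W p)) (r, x) (V (r, x)) -
          fderiv ℝ (fun p => fderiv ℝ f p (V p)) (r, x) (W (r, x)) := fun V W hV hW =>
      VectorField.fderiv_apply_lieBracket hf.contDiffAt (by simp) hW hV
    have e0 : ∀ b, fderiv ℝ (v b) (r, x) (1, 0) = fderiv ℝ v0 (r, x) (0, ξ b * x) := by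
      intro b
      have := br Z0 (Z b) (differentiableAt_const _) (hZd b _).differentiableAt
      rw [VectorField.lieBracket, (hZd b _).fderiv] at this
      simp only [hZ0, fderiv_fun_const, Pi.zero_apply, zero_apply,
        ContinuousLinearMap.prod_apply, ContinuousLinearMap.comp_apply,
        ContinuousLinearMap.coe_snd', map_zero, sub_zero, Prod.mk_zero_zero] at this
      exact sub_eq_zero.mp this.symm
    have e1 : ∀ a b, fderiv ℝ (v b) (r, x) (0, ξ a * x) - fderiv ℝ (v a) (r, x) (0, ξ b * x) =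
        fderiv ℝ f (r, x) (0, (ξ b * ξ a - ξ a * ξ b) * x) := by
      intro a b
      have := br (Z a) (Z b) (hZd a _).differentiableAt (hZd b _).differentiableAt
      rw [VectorField.lieBracket, (hZd b _).fderiv, (hZd a _).fderiv] at this
      rw [← this]
      congr 1
      simp [hZ, sub_mul, mul_assoc]
    have A1 := alg (fun b => v b (r, x)) (v0 (r, x)) (fun b => fderiv ℝ (v b) (r, x) (1, 0))
      (fun a b => fderiv ℝ (v b) (r, x) (0, ξ a * x))
      (fun a b hab => by
        obtain ⟨c, ha, hb, hc⟩ := h2 r x a b hab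
        exact ⟨c, ha, hb, by rw [e1, hc]⟩) lam (g (r, x))
    rw [hφ0, dmul v hvc, hl0]
    refine A1.trans (Finset.sum_congr rfl fun a _ => ?_)
    have u : (fun b => update v a v0 b (r, x)) = update (fun b => v b (r, x)) a (v0 (r, x)) := by
      funext b
      by_cases h : b = a
      · subst h; simp
      · simp [update_of_ne h]
    rw [hφ]
    simp only
    rw [dmul _ (hwc a), hl a, u]
    congr 2
    refine Finset.sum_congr rfl fun b _ => ?_
    by_cases h : b = a
    · subst h; simp [e0]
    · simp [h]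
  have hd : ∀ r : ℝ, HasDerivAt (fun r => ∫ x : unitary A, φ0 (r, x) ∂μ) 0 r := by
    intro r
    have := hasDerivAt_time μ hφ0c r
    simp only [key] at this
    have hi : ∀ a, Integrable (fun x : unitary A => fderiv ℝ (φ a) (r, x) (0, ξ a * x)) μ :=
      fun a => integrable_cont μ
      ((((hφc a).continuous_fderiv one_ne_zero).comp
        (continuous_const.prodMk continuous_subtype_val)).clm_apply
        (continuous_const.prodMk (continuous_const.mul continuous_subtype_val)))
    rw [integral_finsetSum _ fun a _ => hi a] at this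
    simpa only [int_field_zero μ (hφc _) r (hξ _), Finset.sum_const_zero] using this
  exact is_const_of_deriv_eq_zero (fun r => (hd r).differentiableAt) (fun r => (hd r).deriv) s t

end Deg

end Vale.Agent.P174
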