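import Vale.Agent.P174.Word

/-! The lollipop diagram of a product of conjugates. -/

namespace Vale.Agent.P174

open Monoid

lemma exists_cyc {V l : ℕ} (hV : 0 < V) : ∃ O : Cyc (Fin V × Fin (l + 1)), O.n = V * (l + 1) ∧
    (∀ c, O.pos c / (l + 1) = c.1 ∧ O.pos c % (l + 1) = c.2) ∧
    (∀ c c', c'.1 = c.1 → c'.2.1 = c.2.1 + 1 → O.σ c = c') ∧
    ∀ c c', c.2.1 = l → c'.2.1 = 0 → (c'.1.1 = if c.1.1 + 1 = V then 0 else c.1.1 + 1) →
      O.σ c = c' := by
  obtain ⟨n, hn⟩ : ∃ n, V * (l + 1) = n + 1 := Nat.exists_eq_succ_of_ne_zero (by positivity)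
  let e : Fin V × Fin (l + 1) ≃ Fin (n + 1) := finProdFinEquiv.trans (finCongr hn)
  have he : ∀ c, (e c).1 = c.2 + (l + 1) * c.1 := fun _ => rfl
  let O : Cyc (Fin V × Fin (l + 1)) :=
    { n := n + 1
      pos := fun c => e c
      σ := (e.trans (finRotate _)).trans e.symm
      npos := by omega
      inj := fun c c' h => e.injective (Fin.ext h)
      lt := fun c => (e c).2
      surj := fun p hp => ⟨e.symm ⟨p, hp⟩, by simp⟩
      succ := fun c => by simp [Fin.val_add_one, Fin.ext_iff] }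
  have hp : ∀ c, O.pos c = c.2 + (l + 1) * c.1 := he
  have hl : ∀ c, O.pos c < V * (l + 1) := fun c => hn ▸ O.lt c
  have hs : ∀ c, O.pos (O.σ c) = if O.pos c + 1 = V * (l + 1) then 0 else O.pos c + 1 :=
    fun c => hn ▸ O.succ c
  refine ⟨O, hn.symm, fun c => ?_, fun c c' h1 h2 => O.inj ?_, fun c c' h1 h2 h3 => O.inj ?_⟩
  · rw [hp, Nat.add_mul_div_left _ _ l.succ_pos, Nat.add_mul_mod_self_left,
      Nat.div_eq_of_lt c.2.2, Nat.mod_eq_of_lt c.2.2]
    simp
  · have := hl c'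
    rw [hp, h1, h2] at this
    rw [hs, hp, hp, h1, h2]
    rw [if_neg (by omega)]
    omega
  · have := hl c'
    rw [hp, h3, h2] at this
    rw [hs, hp, hp, h3, h2, h1]
    by_cases h : c.1.1 + 1 = V
    · rw [if_pos h, if_pos (by generalize c.1.1 = x at h; rw [← h]; ring)]; simp
    · rw [if_neg h] at this ⊢
      rw [if_neg (fun h => this.ne (Eq.trans (by ring) h))]
      ring

variable {G J : Type*} [Group G]

/-- The word of a relator or of its inverse. -/
def rw' (W : J → ℕ → G × Option (J × Bool)) (L : ℕ) (t : J × Bool) : ℕ → G × Option (J × Bool) :=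
  cond t.2 (W t.1) (rv (W t.1) L)

/-- The word of one lollipop. -/
def bw (H R : ℕ → G × Option (J × Bool)) (a L r : ℕ) : G × Option (J × Bool) :=
  if r ≤ a then H r else if r ≤ a + L + 1 then R (r - (a + 1)) else rv H a (r - (a + L + 2))

lemma ev_bw {H R : ℕ → G × Option (J × Bool)} {a L : ℕ} (h : (H a).2 = none) :
    ev (bw H R a L) (2 * a + L + 2 + 1) = ev H (a + 1) * ev R (L + 1) * (ev H (a + 1))⁻¹ := by
  rw [← ev_rv h, show 2 * a + L + 2 + 1 = a + 1 + (L + 1) + (a + 1) by ring, ev, pre_add, pre_add]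
  congr 1
  · congr 1
    · exact pre_congr fun r hr => by rw [bw, if_pos (by omega)]
    · exact pre_congr fun r hr => by rw [bw, if_neg (by omega), if_pos (by omega)]; simp
  · exact pre_congr fun r hr => by
      rw [bw, if_neg (by omega), if_neg (by omega), show a + 1 + (L + 1) + r - (a + L + 2) = r by omega]

lemma rv_fst (W : ℕ → G × Option (J × Bool)) {a r r' : ℕ} (h : r + r' = a) :
    (rv W a r').1 = (W r).1⁻¹ := by
  rw [rv, show a - r' = r by omega]

lemma rv_snd (W : ℕ → G × Option (J × Bool)) {a r r' : ℕ} (h : r + r' + 1 = a) :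
    (rv W a r').2 = (W r).2.map inv := by
  rw [rv, show a - 1 - r' = r by omega, if_pos (by omega)]

lemma map_inv_inv {X : Type*} (o : Option (X × Bool)) : (o.map inv).map inv = o := by
  rcases o with _ | t <;> simp

lemma rw_fst (W : J → ℕ → G × Option (J × Bool)) {L r r' : ℕ} (h : r + r' = L) (t : J × Bool) :
    (rw' W L (inv t) r').1 = (rw' W L t r).1⁻¹ := by
  rcases t with ⟨i, _ | _⟩
  · exact inv_eq_iff_eq_inv.mp (rv_fst (W i) (by omega)).symm
  · exact rv_fst _ h

lemma rw_snd (W : J → ℕ → G × Option (J × Bool)) {L r r' : ℕ} (h : r + r' + 1 = L) (t : J × Bool) :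
    (rw' W L (inv t) r').2 = (rw' W L t r).2.map inv := by
  rcases t with ⟨i, _ | _⟩
  · exact (map_inv_inv _).symm.trans (congrArg _ (rv_snd (W i) (by omega)).symm)
  · exact rv_snd _ h

theorem diagram [Fintype J] [DecidableEq J] [Nonempty J] {V k a L d : ℕ} (hd : 0 < d)
    (e : Fin V ≃ (J × Bool) × Fin (k + 1)) (H : ℕ → ℕ → G × Option (J × Bool))
    (hH : ∀ D : Fin V, (H D a).2 = none) (W : J → ℕ → G × Option (J × Bool))
    (hW : ∀ i, (W i L).2 = none)
    (hc : ∀ i j, (expHom G J (ev (W i) (L + 1))).toAdd j = if i = j then d else 0)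
    (R : ℕ → ℕ → G × Option (J × Bool)) (hR : ∀ D : Fin V, R D = rw' W L (e D).1) {g : G}
    (g1 : g ≠ 1) (g2 : g * g = 1)
    (hg : pre (fun D => ev (bw (H D) (R D) a L) (2 * a + L + 2 + 1)) V = Coprod.inl g) : False := by
  have hV : V = 2 * (Fintype.card J * (k + 1)) := by
    have := Fintype.card_congr e
    simp only [Fintype.card_fin, Fintype.card_prod, Fintype.card_bool] at this
    rw [this]; ring
  have hV0 : 0 < Fintype.card J * (k + 1) := by have := Fintype.card_pos (α := J); positivity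
  obtain ⟨O, o1, o2, o3, o4⟩ := exists_cyc (V := V) (l := 2 * a + L + 2) (by omega)
  let fl : Fin V → Fin V := fun D => e.symm (inv (e D).1, (e D).2)
  have f1 : ∀ D, fl (fl D) = D := fun D => by simp [fl]
  have f2 : ∀ D, (e (fl D)).1 = inv (e D).1 := fun D => by simp [fl]
  let sw : Fin V → ℕ → Fin V := fun D r => if a < r ∧ r ≤ a + L + 1 then fl D else D
  have s1 : ∀ D r, a < r → r ≤ a + L + 1 → sw D r = fl D := fun D r p q => if_pos ⟨p, q⟩
  have s2 : ∀ D r, r ≤ a ∨ a + L + 1 < r → sw D r = D := fun D r p => if_neg (by omega)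
  let B : ℕ → ℕ → G × Option (J × Bool) := fun D => bw (H D) (R D) a L
  have B0 : ∀ D r, r ≤ a → B D r = H D r := fun D r p => if_pos p
  have B1 : ∀ (D : Fin V) r, r ≤ L → B D (a + 1 + r) = rw' W L (e D).1 r := fun D r p => by
    simp only [B, bw]
    rw [if_neg (by omega), if_pos (by omega), hR]; simp
  have B2 : ∀ D r, B D (a + L + 2 + r) = rv (H D) a r := fun D r => by
    simp only [B, bw]
    rw [if_neg (by omega), if_neg (by omega)]; simp
  have tri : ∀ r, r ≤ a ∨ (∃ r' ≤ L, r = a + 1 + r') ∨ ∃ r', r = a + L + 2 + r' := fun r => by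
    by_cases p : r ≤ a
    · exact Or.inl p
    by_cases q : r ≤ a + L + 1
    · exact Or.inr (Or.inl ⟨r - (a + 1), by omega, by omega⟩)
    · exact Or.inr (Or.inr ⟨r - (a + L + 2), by omega⟩)
  have C1 : ∀ D r r', r + r' = 2 * a + L + 2 → (B (sw D r) r').1 = (B D r).1⁻¹ := by
    intro D r r' h
    rcases tri r with p | ⟨r, p, rfl⟩ | ⟨r, rfl⟩
    · rw [s2 _ _ (by omega), show r' = a + L + 2 + (a - r) by omega, B2, B0 _ _ p,
        rv_fst _ (r := r) (by omega)]
    · rw [s1 _ _ (by omega) (by omega), show r' = a + 1 + (L - r) by omega, B1 _ _ (by omega),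
        B1 _ _ p, f2, rw_fst _ (r := r) (by omega)]
    · rw [s2 _ _ (by omega), B2, B0 _ _ (by omega), rv_fst _ (r := r') (by omega), inv_inv]
  have C2 : ∀ D r r', r + r' = 2 * a + L + 1 → r ≠ a → r ≠ a + L + 1 →
      (B (sw D r) r').2 = (B D r).2.map inv := by
    intro D r r' h h1 h2
    rcases tri r with p | ⟨r, p, rfl⟩ | ⟨r, rfl⟩
    · rw [s2 _ _ (by omega), show r' = a + L + 2 + (a - 1 - r) by omega, B2, B0 _ _ p,
        rv_snd _ (r := r) (by omega)]
    · rw [s1 _ _ (by omega) (by omega), show r' = a + 1 + (L - 1 - r) by omega, B1 _ _ (by omega),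
        B1 _ _ p, f2, rw_snd _ (r := r) (by omega)]
    · rw [s2 _ _ (by omega), B2, B0 _ _ (by omega), rv_snd _ (r := r') (by omega), map_inv_inv]
  have C3 : ∀ (D : Fin V) r, r = a ∨ r = a + L + 1 ∨ r = 2 * a + L + 2 → (B D r).2 = none := by
    rintro D r (rfl | rfl | rfl)
    · rw [B0 _ _ le_rfl, hH]
    · rw [show a + L + 1 = a + 1 + L by ring, B1 _ _ le_rfl]
      rcases (e D).1 with ⟨i, _ | _⟩ <;> simp [rw', rv, hW]
    · rw [show 2 * a + L + 2 = a + L + 2 + a by ring, B2]; simp [rv]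
  let ng : Fin V → Fin V := fun D => ⟨if D.1 = 0 then 0 else V - D, by split_ifs <;> omega⟩
  let j1 : Fin (2 * a + L + 2 + 1) := ⟨a, by omega⟩
  let j2 : Fin (2 * a + L + 2 + 1) := ⟨a + L + 1, by omega⟩
  let t : Fin V × Fin (2 * a + L + 2 + 1) → _ := fun c => (sw c.1 c.2, c.2.rev)
  let ρ : Fin V × Fin (2 * a + L + 2 + 1) → Fin V × Fin (2 * a + L + 2 + 1) := fun c =>
    if c.2.1 = 2 * a + L + 2 then (c.1.rev, c.2) else if c.2.1 = a then (c.1, j2) else
      if c.2.1 = a + L + 1 then (c.1, j1) else c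
  let m : Fin V × Fin (2 * a + L + 2 + 1) → Fin V × Fin (2 * a + L + 2 + 1) := fun c =>
    if c.2.1 = 2 * a + L + 2 then (ng c.1, c.2) else if c.2.1 = a then c else
      if c.2.1 = a + L + 1 then (fl c.1, c.2) else (sw c.1 c.2, ⟨2 * a + L + 1 - c.2, by omega⟩)
  have four : ∀ c : Fin V × Fin (2 * a + L + 2 + 1),
      (c.2.1 = 2 * a + L + 2 ∧ ρ c = (c.1.rev, c.2) ∧ m c = (ng c.1, c.2)) ∨
      (c.2.1 = a ∧ ρ c = (c.1, j2) ∧ m c = c) ∨
      (c.2.1 = a + L + 1 ∧ ρ c = (c.1, j1) ∧ m c = (fl c.1, c.2)) ∨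
      (c.2.1 < 2 * a + L + 2 ∧ c.2.1 ≠ a ∧ c.2.1 ≠ a + L + 1 ∧ ρ c = c ∧
        m c = (sw c.1 c.2, ⟨2 * a + L + 1 - c.2, by omega⟩)) := fun c => by
    have := c.2.2
    simp only [ρ, m]
    split_ifs <;> simp_all
    omega
  refine core O (by simp [o1]) (fun p => (B (p / _) (p % _)).1) (fun p => (B (p / _) (p % _)).2)
    g1 g2 (by rw [o1, ← hg]; exact pre_mul (fun D r => letter (B D r).1 (B D r).2) _ _)
    (P := (J × Bool) × Fin (L + 1)) (κ := Fin (k + 1))
    (b := fun p x => (e.symm (p.1, x), ⟨a + 1 + p.2, by omega⟩)) ?_ Prod.fst (t := t) (ρ := ρ)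
    ?_ ?_ ?_ ?_ (bar := fun p => (inv p.1, p.2.rev)) ?_ (fun _ => rfl) ?_ ?_ (a := m) ?_ ?_
    (bar' := fun p => (inv p.1, ⟨if p.2.1 = L then L else L - 1 - p.2, by split_ifs <;> omega⟩)) ?_
    (fun _ => rfl) ?_ (mb := fun p => (rw' W L p.1 p.2).2) ?_ hd ?_ ?_
  · rintro ⟨s, r⟩ x ⟨s', r'⟩ x' h
    simpa [Fin.ext_iff, and_assoc, and_comm, and_left_comm] using h
  · rintro ⟨D, r⟩
    have := r.2
    simp only [t, Fin.rev_rev, Fin.val_rev, Prod.mk.injEq, and_true]
    by_cases h : a < r ∧ r ≤ a + L + 1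
    · rw [s1 _ _ h.1 h.2, s1 _ _ (by omega) (by omega), f1]
    · rw [s2 _ _ (by omega), s2 _ _ (by omega)]
  · rintro ⟨D, r⟩ h
    simp only [t, Prod.mk.injEq, Fin.ext_iff (a := r.rev), Fin.val_rev] at h
    rw [s1 _ _ (by omega) (by omega)] at h
    exact inv_ne _ ((f2 D).symm.trans (by rw [h.1]))
  · intro c
    have := c.2.2
    simp only [o2]
    exact C1 _ _ _ (by simp only [t, Fin.val_rev]; omega)
  · intro p x x'
    simp only [o2, B1 _ _ (Nat.le_of_lt_succ p.2.2), Equiv.apply_symm_apply]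
  · intro p x
    have := p.2.2
    simp only [t, Prod.mk.injEq, Fin.ext_iff (a := Fin.rev _), Fin.val_rev]
    rw [s1 _ _ (by omega) (by omega)]
    exact ⟨by simp [fl], by omega⟩
  · intro c
    rcases four c with ⟨p, h, -⟩ | ⟨p, h, -⟩ | ⟨p, h, -⟩ | ⟨-, -, -, h, -⟩
    · rw [h]; simp [ρ, p]
    · rw [h]; ext <;> simp [ρ, p, j1, j2, show a + L ≠ 2 * a + L + 1 by omega,
        show a + L + 1 ≠ a by omega]
    · rw [h]; ext <;> simp [ρ, p, j1, j2, show a ≠ 2 * a + L + 2 by omega]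
    · rw [h, h]
  · intro c hc
    simp only [o2] at hc
    rcases four c with ⟨p, -⟩ | ⟨p, -⟩ | ⟨p, -⟩ | ⟨-, -, -, h, -⟩
    exacts [absurd (C3 _ _ (by omega)) hc, absurd (C3 _ _ (by omega)) hc,
      absurd (C3 _ _ (by omega)) hc, h]
  · intro c
    have := c.1.2
    rcases four c with ⟨p, h, h'⟩ | ⟨p, h, h'⟩ | ⟨p, h, h'⟩ | ⟨p, p', p'', h, h'⟩ <;> rw [h, h']
    · rw [o4 (c.1.rev, c.2) (ng c.1, 0) p rfl (by simp only [ng, Fin.val_rev]; split_ifs <;> omega)]
      ext <;> simp [t, s2, p]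
    · rw [o3 (c.1, j2) (c.1, ⟨a + L + 2, by omega⟩) rfl rfl]
      ext <;> simp [t, s2, p]
      omega
    · rw [o3 (c.1, j1) (c.1, ⟨a + 1, by omega⟩) rfl rfl]
      ext <;> simp [t, s1, p]
      omega
    · rw [o3 c (c.1, ⟨c.2 + 1, by omega⟩) rfl rfl]
      ext
      · simp only [t, sw]
        congr 2
        rw [eq_iff_iff]
        omega
      · simp [t]
  · intro c
    have := c.1.2
    rcases four c with ⟨p, -, h⟩ | ⟨p, -, h⟩ | ⟨p, -, h⟩ | ⟨p, p', p'', -, h⟩ <;> rw [h]
    · ext <;> simp [m, p, ng]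
      split_ifs <;> omega
    · exact h
    · simp [m, p, f1, show a + L ≠ 2 * a + L + 1 by omega, show a + L + 1 ≠ a by omega]
    · simp only [m]
      rw [if_neg (by omega), if_neg (by omega), if_neg (by omega)]
      ext
      · by_cases q : a < c.2 ∧ c.2 ≤ a + L + 1
        · rw [s1 _ _ q.1 q.2, s1 _ _ (by omega) (by omega), f1]
        · rw [s2 _ _ (by omega), s2 _ _ (by omega)]
      · simp only
        omega
  · intro p x
    have := p.2.2
    simp only [m]
    rw [if_neg (by omega), if_neg (by omega)]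
    split_ifs with h h' h'
    · ext <;> simp [fl, h']
    · omega
    · omega
    · rw [s1 _ _ (by omega) (by omega)]
      ext <;> simp [fl]
      omega
  · intro c
    simp only [o2]
    rcases four c with ⟨p, -, h⟩ | ⟨p, -, h⟩ | ⟨p, -, h⟩ | ⟨p, p', p'', -, h⟩ <;> rw [h]
    · rw [C3 _ c.2 (by omega), C3 _ c.2 (by omega)]; rfl
    · rw [C3 _ _ (by omega)]; rfl
    · rw [C3 _ c.2 (by omega), C3 _ c.2 (by omega)]; rfl
    · exact C2 _ _ _ (by simp only; omega) p' p''
  · intro p x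
    simp only [o2, B1 _ _ (Nat.le_of_lt_succ p.2.2), Equiv.apply_symm_apply]
  · intro j i
    have := (expHom_ev (W i) (L + 1) j).symm.trans (hc i j)
    rw [Finset.sum_sub_distrib, sub_eq_iff_eq_add', Finset.sum_range, Finset.sum_range] at this
    have key : ∀ q, (Finset.univ.filter fun p : (J × Bool) × Fin (L + 1) =>
        p.1 = (i, true) ∧ (rw' W L p.1 p.2).2 = q).card =
        ∑ r : Fin (L + 1), if (W i r).2 = q then 1 else 0 := fun q => by
      rw [Finset.card_filter, Fintype.sum_prod_type,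
        Finset.sum_eq_single (i, true) (fun x _ h => by simp [h]) (by simp)]
      simp [rw']
    rw [key, key]
    exact_mod_cast this
  · have h1 : (Finset.univ.filter fun c => ρ c ≠ c).card ≤ V * 3 := by
      refine (Finset.card_le_card (t := Finset.univ ×ˢ {j1, j2, Fin.last _}) fun c hc => ?_).trans ?_
      · rcases four c with ⟨p, -⟩ | ⟨p, -⟩ | ⟨p, -⟩ | ⟨-, -, -, h, -⟩ <;>
          simp [Fin.ext_iff, j1, j2, *] at hc ⊢
      · rw [Finset.card_product, Finset.card_fin]
        exact Nat.mul_le_mul_left _ Finset.card_le_three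
    have h2 : V + 2 ≤ (Finset.univ.filter fun c => m c = c).card := by
      refine le_trans ?_ (Finset.card_le_card (s := Finset.univ ×ˢ {j1} ∪
        {⟨0, by omega⟩, ⟨Fintype.card J * (k + 1), by omega⟩} ×ˢ {Fin.last _}) fun c hc => ?_)
      · rw [Finset.card_union_of_disjoint, Finset.card_product, Finset.card_product,
          Finset.card_pair (by simp [Fin.ext_iff])]
        · simp
        · rw [Finset.disjoint_product]
          simp [j1, Fin.ext_iff]
          omega
      · rcases four c with ⟨p, -, h⟩ | ⟨p, -, h⟩ | ⟨p, -, h⟩ | ⟨p, p', p'', -, h⟩ <;>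
          simp only [Finset.mem_union, Finset.mem_product, Finset.mem_univ, Finset.mem_singleton,
            Finset.mem_insert, Fin.ext_iff, j1, Fin.val_last, true_and, Finset.mem_filter, h,
            Prod.ext_iff, ng, and_true] at hc ⊢ <;> (try split_ifs) <;> omega
    rw [Fintype.card_fin]
    omega

end Vale.Agent.P174
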