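import Vale.Agent.P174.Deg
import Mathlib.LinearAlgebra.QuadraticForm.Basic
import Mathlib.Analysis.Calculus.FDeriv.Star
import Mathlib.Analysis.Normed.Module.FiniteDimension

/-! Abstract block algebras and the adapted frame. -/

namespace Vale.Agent.P174

open Function

section Basic

variable {A : Type*} [NormedRing A] [NormedAlgebra ℝ A] [StarRing A]

/-- Smooth connectedness of the unitary group. -/
def Conn (A : Type*) [NormedRing A] [NormedAlgebra ℝ A] [StarRing A] : Prop :=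
  ∀ u ∈ unitary A, ∃ γ : ℝ → A, ContDiff ℝ 2 γ ∧ γ 0 = 1 ∧ γ 1 = u ∧ ∀ t, γ t ∈ unitary A

variable [ContinuousStar A] [StarModule ℝ A]

lemma contDiff_star {n : WithTop ℕ∞} : ContDiff ℝ n fun x : A => star x :=
  (starL' ℝ : A ≃L[ℝ] A).contDiff

lemma compact_unitary [FiniteDimensional ℝ A] (T : A →ₗ[ℝ] ℝ)
    (hT : ∀ x, x ≠ 0 → 0 < T (star x * x)) : CompactSpace (unitary A) := by
  have : ProperSpace A := FiniteDimensional.proper ℝ A
  have hc : Continuous fun x : A => T (star x * x) :=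
    T.continuous_of_finiteDimensional.comp (continuous_star.mul continuous_id)
  obtain ⟨c, hc0, hc1⟩ := (isCompact_sphere (0 : A) 1).exists_forall_le' hc.continuousOn
    (a := 0) fun x hx => hT x (by rintro rfl; simp at hx)
  refine isCompact_iff_compactSpace.mp
    (Metric.isCompact_of_isClosed_isBounded isClosed_unitary ?_)
  refine (Metric.isBounded_closedBall (x := (0 : A)) (r := |T 1| / c + 1)).subset fun x hx => ?_
  rw [mem_closedBall_zero_iff]
  by_contra hn
  push Not at hn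
  have h0 : 0 ≤ |T 1| / c := by positivity
  have h1 : 0 < ‖x‖ := by linarith
  have h2 := hc1 (‖x‖⁻¹ • x) (by simp [norm_smul, h1.ne'])
  rw [star_smul, star_trivial, smul_mul_smul_comm, hx.1, map_smul, smul_eq_mul] at h2
  have h3 : c * (‖x‖ * ‖x‖) ≤ T 1 := by
    have := mul_le_mul_of_nonneg_right h2 (mul_pos h1 h1).le
    have e : ‖x‖⁻¹ * ‖x‖⁻¹ * T 1 * (‖x‖ * ‖x‖) = T 1 := by field_simp
    rwa [e] at this
  have h4 : |T 1| < c * ‖x‖ := by
    have : |T 1| / c < ‖x‖ := by linarith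
    rwa [div_lt_iff₀' hc0] at this
  have h5 := le_abs_self (T 1)
  have h6 : c * ‖x‖ * 1 ≤ c * ‖x‖ * ‖x‖ :=
    mul_le_mul_of_nonneg_left (by linarith) (by positivity)
  nlinarith

end Basic

/-- A block-diagonal embedding together with a faithful trace. -/
structure Setup (D1 D2 B : Type*) [NormedRing D1] [NormedAlgebra ℝ D1] [StarRing D1]
    [NormedRing D2] [NormedAlgebra ℝ D2] [StarRing D2]
    [NormedRing B] [NormedAlgebra ℝ B] [StarRing B] where
  blk : (D1 × D2) →⋆ₐ[ℝ] B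
  T : B →ₗ[ℝ] ℝ
  comm : ∀ x y, T (x * y) = T (y * x)
  st : ∀ x, T (star x) = T x
  pos : ∀ x, x ≠ 0 → 0 < T (star x * x)
  inj : Injective blk
  surj : ∀ b, b * blk (1, -1) = blk (1, -1) * b → ∃ d, blk d = b

variable {D1 D2 B : Type*} [NormedRing D1] [NormedAlgebra ℝ D1] [StarRing D1] [StarModule ℝ D1]
  [NormedRing D2] [NormedAlgebra ℝ D2] [StarRing D2] [StarModule ℝ D2]
  [NormedRing B] [NormedAlgebra ℝ B] [StarRing B] [StarModule ℝ B]

namespace Setup

variable (S : Setup D1 D2 B)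

/-- Off-diagonal skew elements. -/
def So : Submodule ℝ B where
  carrier := {μ | star μ = -μ ∧ S.blk (1, -1) * μ = -(μ * S.blk (1, -1))}
  add_mem' := by
    rintro a b ⟨h1, h2⟩ ⟨h3, h4⟩
    exact ⟨by rw [star_add, h1, h3, neg_add], by rw [mul_add, add_mul, h2, h4, neg_add]⟩
  zero_mem' := by simp
  smul_mem' := by
    rintro c a ⟨h1, h2⟩
    exact ⟨by rw [star_smul, h1, star_trivial, smul_neg],
      by rw [mul_smul_comm, smul_mul_assoc, h2, smul_neg]⟩

/-- The horizontal tangent space. -/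
abbrev W := S.So × skewAdjoint.submodule ℝ (D1 × D2)

/-- Embedding of the horizontal space. -/
noncomputable def emb : S.W →ₗ[ℝ] (D1 × D2) × B :=
  ((skewAdjoint.submodule ℝ (D1 × D2)).subtype.comp (LinearMap.snd ℝ _ _)).prod
    (S.So.subtype.comp (LinearMap.fst ℝ _ _))

lemma emb_apply (w : S.W) : S.emb w = ((w.2 : D1 × D2), (w.1 : B)) := rfl

lemma skew2 (w : skewAdjoint.submodule ℝ (D1 × D2)) : star (w : D1 × D2) = -w := w.2

lemma emb_skew (w : S.W) : star (S.emb w) = -S.emb w :=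
  Prod.ext (skew2 w.2) w.1.2.1

omit [StarModule ℝ D1] [StarModule ℝ D2] [StarModule ℝ B] in
lemma sg_sq : S.blk (1, -1) * S.blk (1, -1) = 1 := by
  rw [← map_mul, ← map_one S.blk]; congr 1; ext <;> simp

omit [StarModule ℝ D1] [StarModule ℝ D2] [StarModule ℝ B] in
lemma sg_star : star (S.blk (1, -1)) = S.blk (1, -1) := by
  rw [← map_star]; congr 1; ext <;> simp

omit [StarModule ℝ D1] [StarModule ℝ D2] [StarModule ℝ B] in
lemma sg_comm (d : D1 × D2) : S.blk (1, -1) * S.blk d = S.blk d * S.blk (1, -1) := by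
  rw [← map_mul, ← map_mul]; congr 1; ext <;> simp

lemma two_eq_zero {M : Type*} [AddCommGroup M] [Module ℝ M] {x : M} (h : x = -x) : x = 0 := by
  have : (2 : ℝ) • x = 0 := by rw [two_smul]; nth_rw 1 [h]; simp
  simpa using this

omit [StarModule ℝ D1] [StarModule ℝ D2] in
lemma sum_zero {μ : B} {d : D1 × D2} (hμ : μ ∈ S.So) (h : μ + S.blk d = 0) : μ = 0 ∧ d = 0 := by
  have e : μ = -S.blk d := eq_neg_of_add_eq_zero_left h
  have h1 : S.blk (1, -1) * μ = μ * S.blk (1, -1) := by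
    rw [e, mul_neg, neg_mul, S.sg_comm]
  have h2 : μ * S.blk (1, -1) = 0 := two_eq_zero (h1.symm.trans hμ.2)
  have h3 : μ = 0 := by rw [← mul_one μ, ← S.sg_sq, ← mul_assoc, h2, zero_mul]
  refine ⟨h3, S.inj ?_⟩
  rw [h3, zero_add] at h
  rw [h, map_zero]

lemma exists_sk : ∃ sk : B →ₗ[ℝ] S.W, ∀ Y, ((sk Y).1 : B) + S.blk (sk Y).2 =
    (1 / 2 : ℝ) • (Y - star Y) := by
  let asm : S.W →ₗ[ℝ] B := S.So.subtype.coprod
    (S.blk.toAlgHom.toLinearMap.comp (skewAdjoint.submodule ℝ (D1 × D2)).subtype)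
  have ha : ∀ w, asm w = (w.1 : B) + S.blk w.2 := fun w => rfl
  obtain ⟨l, hl⟩ := asm.exists_leftInverse_of_injective (LinearMap.ker_eq_bot'.mpr fun w hw => by
    have := S.sum_zero w.1.2 hw
    exact Prod.ext (Subtype.ext this.1) (Subtype.ext this.2))
  let sp : B →ₗ[ℝ] B := (skewAdjoint.submodule ℝ B).subtype.comp (skewAdjointPart ℝ)
  have hsp : ∀ Y, sp Y = (1 / 2 : ℝ) • (Y - star Y) := fun Y => by
    change (⅟2 : ℝ) • (Y - star Y) = _
    simp
  refine ⟨l.comp sp, fun Y => ?_⟩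
  set X := sp Y with hX
  have hXs : star X = -X := (skewAdjointPart ℝ Y).2
  set ς := S.blk (1, -1) with hς
  have hss : ς * ς = 1 := S.sg_sq
  obtain ⟨d, hd⟩ := S.surj ((1 / 2 : ℝ) • (X + ς * X * ς)) (by
    rw [← hς, smul_mul_assoc, mul_smul_comm, add_mul, mul_add, mul_assoc _ ς ς, hss,
      ← mul_assoc, ← mul_assoc, hss, one_mul, mul_one, add_comm])
  have hds : star d = -d := S.inj (by
    rw [map_star, map_neg, hd, star_smul, star_add, star_mul, star_mul, S.sg_star, hXs,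
      star_trivial, ← smul_neg]
    congr 1
    noncomm_ring)
  have hμ : (1 / 2 : ℝ) • (X - ς * X * ς) ∈ S.So := by
    refine S.So.smul_mem _ ⟨?_, ?_⟩
    · rw [star_sub, star_mul, star_mul, S.sg_star, hXs]; noncomm_ring
    · rw [← hς, mul_sub, sub_mul, mul_assoc _ ς ς, hss, ← mul_assoc, ← mul_assoc, hss]
      noncomm_ring
  have e : asm (⟨_, hμ⟩, ⟨d, hds⟩) = X := by
    rw [ha]
    simp only [hd]
    module
  have e2 : l X = (⟨_, hμ⟩, ⟨d, hds⟩) :=
    (congrArg l e).symm.trans (LinearMap.congr_fun hl _)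
  rw [← hsp, ← ha, LinearMap.comp_apply, ← hX, e2, e]

/-- Coordinates of the skew part. -/
noncomputable def sk : B →ₗ[ℝ] S.W := S.exists_sk.choose

lemma sk_spec (Y : B) : ((S.sk Y).1 : B) + S.blk (S.sk Y).2 = (1 / 2 : ℝ) • (Y - star Y) :=
  S.exists_sk.choose_spec Y

lemma sk_eq_zero {Y : B} (h : S.sk Y = 0) : star Y = Y := by
  have := S.sk_spec Y
  rw [h] at this
  simp only [Prod.fst_zero, ZeroMemClass.coe_zero, Prod.snd_zero, map_zero, add_zero] at this
  have h2 := (smul_eq_zero.mp this.symm).resolve_left (by norm_num)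
  exact (sub_eq_zero.mp h2).symm

lemma sk_asm (w : S.W) : S.sk ((w.1 : B) + S.blk w.2) = w := by
  have h := S.sk_spec ((w.1 : B) + S.blk w.2)
  set w' := S.sk ((w.1 : B) + S.blk w.2)
  rw [star_add, ← map_star, skew2, w.1.2.1, map_neg] at h
  have h2 : ((w'.1 - w.1 : S.So) : B) + S.blk (w'.2 - w.2 : D1 × D2) = 0 := by
    rw [map_sub, AddSubgroupClass.coe_sub]
    have : (w'.1 : B) = _ := eq_sub_of_add_eq h
    rw [this]
    module
  have h3 := S.sum_zero (w'.1 - w.1).2 h2
  exact Prod.ext (sub_eq_zero.mp (Subtype.ext h3.1)) (Subtype.ext (sub_eq_zero.mp h3.2))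

variable [FiniteDimensional ℝ D1] [FiniteDimensional ℝ D2] [FiniteDimensional ℝ B]

theorem exists_frame : ∃ (n1 n2 : ℕ) (b : Module.Basis (Fin n1 ⊕ Fin n2) ℝ S.W),
    ∀ a a', a ≠ a' → ∀ y : D2, ∃ (w : S.W) (η : D1 × D2), star η = -η ∧ b.repr w a = 0 ∧
      b.repr w a' = 0 ∧ S.emb (b a') * S.emb (b a) - S.emb (b a) * S.emb (b a') =
        S.emb w + ((0, η.2 - y * η.2 * star y), S.blk η) := by
  let S2 := skewAdjoint.submodule ℝ (D1 × D2)
  let Q : LinearMap.BilinForm ℝ S2 := LinearMap.mk₂ ℝ (fun x y => S.T (S.blk (x * y : D1 × D2)))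
    (by intros; simp [add_mul]) (by intros; simp) (by intros; simp [mul_add]) (by intros; simp)
  have hQ : ∀ x y : S2, Q x y = S.T (S.blk (x * y : D1 × D2)) := fun _ _ => rfl
  have hs : Q.IsSymm := ⟨fun x y => by simp only [hQ, map_mul, RingHom.id_apply, S.comm]⟩
  obtain ⟨b2, hb2⟩ := LinearMap.BilinForm.exists_orthogonal_basis hs
  have hrep : ∀ (w : S2) i, Q w (b2 i) = 0 → b2.repr w i = 0 := by
    intro w i h
    have h1 : Q (b2 i) (b2 i) ≠ 0 := by
      have := S.pos (S.blk (b2 i)) fun h0 =>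
        b2.ne_zero i (Subtype.ext (S.inj (by rw [h0]; simp)))
      rw [← map_star, skew2, map_neg, neg_mul, map_neg, ← map_mul, ← hQ] at this
      exact fun h => by simp [h] at this
    rw [← b2.sum_repr w, map_sum, LinearMap.sum_apply, Finset.sum_eq_single i
      (fun j _ hj => by rw [map_smul, LinearMap.smul_apply, hb2 hj, smul_zero]) (by simp),
      map_smul, LinearMap.smul_apply, smul_eq_mul] at h
    exact (mul_eq_zero.mp h).resolve_right h1
  refine ⟨_, _, (Module.finBasis ℝ S.So).prod b2, ?_⟩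
  rintro (a | a) (a' | a') h y
  · set μ := Module.finBasis ℝ S.So a
    set μ' := Module.finBasis ℝ S.So a'
    obtain ⟨η, hη⟩ := S.surj ((μ' : B) * μ - μ * μ') (by
      have h1 := μ.2.2
      have h2 := μ'.2.2
      rw [mul_sub, ← mul_assoc, ← mul_assoc, h1, h2, neg_mul, neg_mul, mul_assoc, mul_assoc,
        h1, h2]
      noncomm_ring)
    have hηs : star η = -η := S.inj (by
      rw [map_star, map_neg, hη, star_sub, star_mul, star_mul, μ.2.1, μ'.2.1]
      noncomm_ring)
    have h2 : star η.2 = -η.2 := congrArg Prod.snd hηs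
    refine ⟨(0, ⟨(0, y * η.2 * star y - η.2), ?_⟩), η, hηs, by simp, by simp, ?_⟩
    · change star _ = _
      ext
      · simp
      · simp only [Prod.snd_star, star_sub, star_mul, star_star, h2, Prod.snd_neg]
        noncomm_ring
    · ext <;> simp [emb_apply, hη, μ, μ']
  · exact ⟨0, 0, by simp, by simp, by simp, by ext <;> simp [emb_apply]⟩
  · exact ⟨0, 0, by simp, by simp, by simp, by ext <;> simp [emb_apply]⟩
  · refine ⟨(0, ⟨(b2 a' : D1 × D2) * b2 a - b2 a * b2 a', ?_⟩), 0, by simp, ?_, ?_, ?_⟩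
    · change star _ = _
      rw [star_sub, star_mul, star_mul, skew2, skew2]
      noncomm_ring
    · rw [Module.Basis.prod_repr_inr]
      refine hrep _ _ ?_
      simp only [hQ, sub_mul, map_sub, map_mul]
      rw [S.comm (_ * _), ← mul_assoc, sub_self]
    · rw [Module.Basis.prod_repr_inr]
      refine hrep _ _ ?_
      simp only [hQ, sub_mul, map_sub, map_mul]
      rw [S.comm (S.blk (b2 a) * _), ← mul_assoc, sub_self]
    · ext <;> simp [emb_apply]

end Setup

end Vale.Agent.P174
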