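import Vale.Agent.P174.Trace
import Mathlib.Algebra.MonoidAlgebra.Basic
import Mathlib.LinearAlgebra.Matrix.Trace
import Mathlib.LinearAlgebra.Matrix.ConjTranspose

/-! The complex group algebra with its canonical trace, and matrix traces. -/

namespace Vale.Agent.P174

open MonoidAlgebra

variable {G : Type*} [Group G]

/-- The adjoint on the group algebra. -/
noncomputable def gst : MonoidAlgebra ℂ G →+ MonoidAlgebra ℂ G where
  toFun x := mapDomain (·⁻¹) (map (starRingEnd ℂ : ℂ →+ ℂ) x)
  map_zero' := by simp
  map_add' x y := by rw [MonoidAlgebra.map_add, mapDomain_add]

lemma gst_single (g : G) (a : ℂ) : gst (single g a) = single g⁻¹ (star a) := by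
  simp [gst]

noncomputable instance gstar : StarRing (MonoidAlgebra ℂ G) where
  star := gst
  star_involutive x := by
    induction x using induction_linear with
    | zero => simp
    | add x y a b => simp only [map_add, a, b]
    | single g a => simp [gst_single]
  star_add := gst.map_add
  star_mul x y := by
    induction x using induction_linear with
    | zero => simp
    | add x x' a b => simp only [add_mul, mul_add, map_add, a, b]
    | single g a =>
      induction y using induction_linear with
      | zero => simp
      | add x x' a b => simp only [add_mul, mul_add, map_add, a, b]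
      | single h b => simp [gst_single, single_mul_single, mul_comm]

lemma star_single (g : G) (a : ℂ) : star (single g a) = single g⁻¹ (star a) := gst_single g a

instance : StarModule ℂ (MonoidAlgebra ℂ G) where
  star_smul r x := by
    induction x using induction_linear with
    | zero => simp
    | add x y a b => simp only [smul_add, star_add, a, b]
    | single g a => simp [star_single]

lemma coeff_star (x : MonoidAlgebra ℂ G) (g : G) : (star x).coeff g = star (x.coeff g⁻¹) := by
  classical
  induction x using induction_linear with
  | zero => simp
  | add x y a b => simp [a, b]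
  | single h a =>
    simp only [star_single, coeff_single, Finsupp.single_apply, inv_eq_iff_eq_inv]
    split_ifs <;> simp

/-- The canonical trace. -/
noncomputable def gtr (G : Type*) [Group G] : Tr (MonoidAlgebra ℂ G) where
  τ := { toFun := fun x => x.coeff 1, map_add' := fun _ _ => rfl, map_smul' := fun _ _ => rfl }
  comm x y := by
    change (x * y).coeff 1 = (y * x).coeff 1
    rw [coeff_mul_apply_left, coeff_mul_apply_right]
    simp [mul_comm]
  st x := (coeff_star x 1).trans (by rw [inv_one]; rfl)
  pos x := by
    change 0 ≤ ((star x * x).coeff 1).re
    rw [coeff_mul_apply_right, Finsupp.sum, Complex.re_sum]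
    refine Finset.sum_nonneg fun g _ => ?_
    simp [coeff_star, add_nonneg, mul_self_nonneg]

/-- The trace on matrices. -/
noncomputable def Tr.mat {R : Type*} [Ring R] [Algebra ℂ R] [StarRing R] (T : Tr R) (C : Type*)
    [Fintype C] [DecidableEq C] : Tr (Matrix C C R) where
  τ := T.τ ∘ₗ Matrix.traceLinearMap C ℂ R
  comm x y := by
    simp only [LinearMap.comp_apply, Matrix.traceLinearMap_apply, Matrix.trace, Matrix.diag,
      Matrix.mul_apply, map_sum]
    rw [Finset.sum_comm]
    simp only [T.comm (x _ _)]
  st x := by
    simp [Matrix.star_eq_conjTranspose, Matrix.trace_conjTranspose, T.st]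
  pos x := by
    simp only [LinearMap.comp_apply, Matrix.traceLinearMap_apply, Matrix.trace, Matrix.diag,
      Matrix.mul_apply, map_sum, Complex.re_sum, Matrix.star_apply]
    exact Finset.sum_nonneg fun _ _ => Finset.sum_nonneg fun _ _ => T.pos _

end Vale.Agent.P174
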