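import Vale.Agent.P174.Top
import Mathlib.MeasureTheory.Measure.Haar.Basic

/-! Positivity of the intersection integral for the model map, and the topological lemma. -/

namespace Vale.Agent.P174

open Function MeasureTheory

set_option linter.unusedSectionVars false

section Det

variable {W : Type*} [NormedAddCommGroup W] [NormedSpace ℝ W] [FiniteDimensional ℝ W]

lemma cont_det {X : Type*} [TopologicalSpace X] {L : X → W →ₗ[ℝ] W}
    (hc : ∀ w, Continuous fun t => L t w) : Continuous fun t => LinearMap.det (L t) := by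
  let b := Module.finBasis ℝ W
  simp only [← LinearMap.det_toMatrix b]
  refine Continuous.matrix_det (continuous_matrix fun i j => ?_)
  simp only [LinearMap.toMatrix_apply]
  exact (b.coord i).continuous_of_finiteDimensional.comp (hc _)

lemma det_ne {L : W →ₗ[ℝ] W} (h : ∀ w, L w = 0 → w = 0) : LinearMap.det L ≠ 0 := fun h0 =>
  (LinearMap.bot_lt_ker_of_det_eq_zero h0).ne' (LinearMap.ker_eq_bot'.mpr h)

lemma det_nonneg {L : ℝ → W →ₗ[ℝ] W} (hc : ∀ w, Continuous fun t => L t w)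
    (h0 : 0 < LinearMap.det (L 0)) (h : ∀ t, 0 ≤ t → t < 1 → ∀ w, L t w = 0 → w = 0) :
    0 ≤ LinearMap.det (L 1) := by
  by_contra hn
  obtain ⟨t, ht, h1⟩ := intermediate_value_Icc' zero_le_one (cont_det hc).continuousOn
    (⟨(not_le.mp hn).le, h0.le⟩ : (0 : ℝ) ∈ Set.Icc _ _)
  refine det_ne (h t ht.1 (ht.2.lt_of_ne ?_)) h1
  rintro rfl
  exact hn h1.ge

end Det

lemma fderiv_pow_geo {A : Type*} [NormedRing A] [NormedAlgebra ℝ A] [StarRing A] {τ : A}
    (hτ : τ ∈ unitary A) (α : A) (d : ℕ) : ∃ D : A →L[ℝ] A, HasFDerivAt (fun x : A => x ^ d) D τ ∧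
      D (α * τ) = (∑ i ∈ Finset.range d, τ ^ i * α * star τ ^ i) * τ ^ d := by
  induction d with
  | zero => exact ⟨0, by simpa using hasFDerivAt_const (1 : A) τ, by simp⟩
  | succ d ih =>
    obtain ⟨D, h1, h2⟩ := ih
    refine ⟨_, by simp only [pow_succ]; exact h1.mul' (hasFDerivAt_id τ), ?_⟩
    have e : star τ ^ d * τ ^ d = 1 := by rw [← star_pow]; exact (pow_mem hτ d).1
    simp only [add_apply, smul_apply, h2,
      ContinuousLinearMap.id_apply, smul_eq_mul, MulOpposite.smul_eq_mul_unop,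
      MulOpposite.unop_op, Finset.sum_range_succ, add_mul, pow_succ]
    rw [add_comm, mul_assoc (τ ^ d * α), ← mul_assoc (star τ ^ d), e, one_mul, mul_assoc,
      mul_assoc]

variable {D1 D2 B : Type*} [NormedRing D1] [NormedAlgebra ℝ D1] [StarRing D1] [StarModule ℝ D1]
  [NormedRing D2] [NormedAlgebra ℝ D2] [StarRing D2] [StarModule ℝ D2]
  [NormedRing B] [NormedAlgebra ℝ B] [StarRing B] [StarModule ℝ B]
  [FiniteDimensional ℝ D1] [FiniteDimensional ℝ D2] [FiniteDimensional ℝ B]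
  [ContinuousStar D1] [ContinuousStar D2] [ContinuousStar B]

namespace Setup

variable (S : Setup D1 D2 B)

/-- The model maps. -/
def mdl (d : ℕ) (τ : D1) : B := S.blk (τ ^ d, -1)

lemma contDiff_mdl (d : ℕ) : ContDiff ℝ 2 (S.mdl d) :=
  S.blkL.contDiff.comp ((contDiff_id.pow d).prodMk contDiff_const)

lemma mdl_unitary (d : ℕ) {τ : D1} (h : τ ∈ unitary D1) : S.mdl d τ ∈ unitary B :=
  S.blk_unitary (pow_mem h d) (by simp [Unitary.mem_iff])

lemma contDiff_Psi {Φ : D1 → B} (h : ContDiff ℝ 2 Φ) : ContDiff ℝ 2 (S.Psi Φ) :=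
  (h.comp contDiff_fst.fst).mul S.contDiff_E

lemma cont_L {Φ : D1 → B} (h : ContDiff ℝ 2 Φ) (w : S.W) : Continuous fun x => S.L Φ x w :=
  S.sk.continuous_of_finiteDimensional.comp
    (((S.contDiff_Psi h).continuous_fderiv two_ne_zero).clm_apply
      (continuous_const.mul continuous_id))

lemma gap_nonneg {Y : B} (hY : Y ∈ unitary B) : 0 ≤ S.T 1 - S.T Y := by
  by_cases h : Y = 1
  · simp [h]
  · exact (S.gap_pos hY h).le

lemma fibre (x : unitary ((D1 × D2) × B)) (h : S.Psi (S.mdl 1) x = 1) :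
    ∃ q1 ∈ unitary D1, ∃ q2 ∈ unitary D2, x.1 = ((1, -1), S.blk (q1, q2)) := by
  obtain ⟨⟨⟨τ, y⟩, q⟩, hx⟩ := x
  have hτ : τ ∈ unitary D1 := u11 ⟨_, hx⟩
  have hy : y ∈ unitary D2 := u12 ⟨_, hx⟩
  have hq : q ∈ unitary B := u2 ⟨_, hx⟩
  have hm := S.mdl_unitary 1 hτ
  simp only [Psi, E, mdl, pow_one] at h hm
  have e : star q * S.blk (1, y) * q = star (S.blk (τ, -1)) := by
    rw [← one_mul (_ * q), ← hm.1, mul_assoc, h, mul_one]
  have e2 := congrArg S.T e
  rw [S.comm, ← mul_assoc, hq.2, one_mul, S.st] at e2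
  have hy' : -y ∈ unitary D2 := by simpa [Unitary.mem_iff] using hy
  have u1 := S.blk_unitary hτ (one_mem _)
  have u2 := S.blk_unitary (one_mem _) hy'
  have g1 := S.gap_nonneg u1
  have g2 := S.gap_nonneg u2
  have e3 : S.blk (τ, 1) + S.blk (1, -y) + S.blk (1, y) = 1 + 1 + S.blk (τ, -1) := by
    rw [← map_one S.blk, ← map_add, ← map_add, ← map_add, ← map_add]
    congr 1
    ext
    · simp; abel
    · simp
  have e4 := congrArg S.T e3
  simp only [map_add] at e4
  have h1 : S.blk (τ, 1) = S.blk 1 := by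
    by_contra hn
    have := S.gap_pos u1 (by rwa [map_one] at hn)
    linarith
  have h2 : S.blk (1, -y) = S.blk 1 := by
    by_contra hn
    have := S.gap_pos u2 (by rwa [map_one] at hn)
    linarith
  obtain rfl : τ = 1 := congrArg Prod.fst (S.inj h1)
  obtain rfl : y = -1 := neg_eq_iff_eq_neg.mp (congrArg Prod.snd (S.inj h2))
  rw [S.sg_star] at e
  obtain ⟨d, rfl⟩ := S.surj q (by rw [← e, ← mul_assoc, ← mul_assoc, hq.2, one_mul, e])
  have a1 : star d * d = 1 := S.inj (by rw [map_mul, map_star, hq.1, map_one])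
  have a2 : d * star d = 1 := S.inj (by rw [map_mul, map_star, hq.2, map_one])
  exact ⟨d.1, ⟨congrArg Prod.fst a1, congrArg Prod.fst a2⟩, d.2,
    ⟨congrArg Prod.snd a1, congrArg Prod.snd a2⟩, rfl⟩

lemma L_fibre {q1 : D1} {q2 : D2} (h1 : q1 ∈ unitary D1) (h2 : q2 ∈ unitary D2) (w : S.W) :
    S.L (S.mdl 1) ((1, -1), S.blk (q1, q2)) w = S.sk (star (S.blk (q1, q2)) *
      (((2 : ℝ) • w.1 : S.So) + S.blk (q1 * w.2.1.1 * star q1, w.2.1.2)) * S.blk (q1, q2)) := by
  set q := S.blk (q1, q2) with hq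
  have hqu : q ∈ unitary B := S.blk_unitary h1 h2
  have hd : ∀ v, fderiv ℝ (S.mdl 1) 1 v = S.blk (v, 0) := fun v => by
    have := (S.blkL.hasFDerivAt.comp (1 : D1)
      ((hasFDerivAt_id (1 : D1)).prodMk (hasFDerivAt_const (-1 : D2) (1 : D1)))).fderiv
    have e : S.mdl 1 = S.blkL ∘ fun x => (id x, -1) := by funext τ; simp [mdl, blkL]
    rw [e, this]
    simp [blkL]
  simp only [L, LinearMap.comp_apply, ContinuousLinearMap.coe_coe, LinearMap.mulRight_apply]
  congr 1
  rw [S.fderiv_Psi ((S.contDiff_mdl 1).differentiable two_ne_zero), fderiv_E, hd]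
  simp only [emb_apply, Prod.fst_mul, Prod.snd_mul, E, mdl, one_pow, mul_one]
  set ς := S.blk (1, -1) with hς
  have hss : ς * ς = 1 := S.sg_sq
  have c1 : ς * star q = star q * ς := by rw [hq, ← map_star]; exact S.sg_comm _
  have c2 : ς * (w.1 : B) = -(w.1 * ς) := w.1.2.2
  have e1 : S.blk (w.2.1.1, 0) * (star q * ς * q) =
      star q * S.blk (q1 * w.2.1.1 * star q1, 0) * q := by
    simp only [hq, hς, ← map_star, ← map_mul]
    congr 1
    ext
    · simp [mul_assoc, h1.1, ← mul_assoc (star q1) q1]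
    · simp
  have e2 : ς * S.blk (0, w.2.1.2 * -1) = S.blk (0, w.2.1.2) := by
    rw [hς, ← map_mul]; congr 1; ext <;> simp
  have e3 : S.blk (q1 * w.2.1.1 * star q1, w.2.1.2) =
      S.blk (q1 * w.2.1.1 * star q1, 0) + S.blk (0, w.2.1.2) := by
    rw [← map_add]; simp
  have e4 : ς * (w.1 * ς) = -(w.1 : B) := by
    rw [← mul_assoc, c2, neg_mul, mul_assoc, hss, mul_one]
  rw [e1, e3, ← e2, star_mul, w.1.2.1, Submodule.coe_smul, two_smul]
  simp only [mul_add, add_mul, ← mul_assoc, c1]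
  simp only [mul_assoc, neg_mul, mul_neg]
  rw [← mul_assoc ς ς, hss, one_mul, ← mul_assoc (w.1 : B) ς, ← mul_assoc ς (_ * ς), e4]
  noncomm_ring

lemma L_inj {q1 : D1} {q2 : D2} (h1 : q1 ∈ unitary D1) (h2 : q2 ∈ unitary D2) (w : S.W)
    (h : S.L (S.mdl 1) ((1, -1), S.blk (q1, q2)) w = 0) : w = 0 := by
  rw [S.L_fibre h1 h2] at h
  have hqu := S.blk_unitary h1 h2
  set q := S.blk (q1, q2)
  set Z := (((2 : ℝ) • w.1 : S.So) : B) + S.blk (q1 * w.2.1.1 * star q1, w.2.1.2) with hZ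
  have a1 : star w.2.1.1 = -w.2.1.1 := congrArg Prod.fst (skew2 w.2)
  have a2 : star w.2.1.2 = -w.2.1.2 := congrArg Prod.snd (skew2 w.2)
  have hZs : star Z = -Z := by
    rw [hZ, star_add, ((2 : ℝ) • w.1).2.1, ← map_star, neg_add, ← map_neg]
    congr 2
    ext <;> simp [a1, a2, mul_assoc]
  have h3 := S.sk_eq_zero h
  rw [star_mul, star_mul, star_star, hZs, neg_mul, mul_neg, ← mul_assoc] at h3
  have h4 : Z = 0 := by
    have := congrArg (fun t => q * t * star q) (two_eq_zero h3.symm)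
    simpa [mul_assoc, hqu.2, ← mul_assoc q (star q)] using this
  obtain ⟨h5, h6⟩ := S.sum_zero ((2 : ℝ) • w.1).2 h4
  have h7 := congrArg (fun t => star q1 * t.1 * q1) h6
  refine Prod.ext (Subtype.ext ?_) (Subtype.ext (Prod.ext ?_ (congrArg Prod.snd h6 :)))
  · simpa using h5
  · simpa [mul_assoc, h1.1, ← mul_assoc (star q1) q1] using h7

lemma det_one_pos : 0 < LinearMap.det (S.L (S.mdl 1) ((1, -1), S.blk (1, 1))) := by
  have : S.L (S.mdl 1) ((1, -1), S.blk (1, 1)) =
      LinearMap.prodMap ((2 : ℝ) • LinearMap.id) LinearMap.id := LinearMap.ext fun w => by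
    rw [S.L_fibre (one_mem _) (one_mem _), Prod.mk_one_one, map_one, star_one, star_one]
    simpa using S.sk_asm ((2 : ℝ) • w.1, w.2)
  rw [this, LinearMap.det_prodMap, LinearMap.det_smul]
  simp

lemma det_fibre_pos (c1 : Conn D1) (c2 : Conn D2) (x : unitary ((D1 × D2) × B))
    (h : S.Psi (S.mdl 1) x = 1) : 0 < LinearMap.det (S.L (S.mdl 1) x) := by
  obtain ⟨q1, h1, q2, h2, e⟩ := S.fibre x h
  obtain ⟨γ1, a1, a2, a3, a4⟩ := c1 q1 h1
  obtain ⟨γ2, b1, b2, b3, b4⟩ := c2 q2 h2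
  rw [e]
  refine lt_of_le_of_ne ?_ (det_ne (S.L_inj h1 h2)).symm
  rw [← a3, ← b3]
  refine det_nonneg (L := fun t => S.L (S.mdl 1) ((1, -1), S.blk (γ1 t, γ2 t))) (fun w => ?_)
    (by simpa only [a2, b2] using S.det_one_pos) fun t _ _ => S.L_inj (a4 t) (b4 t)
  exact (S.cont_L (S.contDiff_mdl 1) w).comp (continuous_const.prodMk
    (S.blkL.continuous.comp (a1.continuous.prodMk b1.continuous)))

/-- Truncated geometric series of conjugations. -/
noncomputable def geo (d : ℕ) (τ : D1) (s : ℝ) : S.W →ₗ[ℝ] S.W where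
  toFun w := (w.1, ⟨(∑ i ∈ Finset.range d, s ^ i • (τ ^ i * w.2.1.1 * star τ ^ i), w.2.1.2), by
    have a1 : star w.2.1.1 = -w.2.1.1 := congrArg Prod.fst (skew2 w.2)
    have a2 : star w.2.1.2 = -w.2.1.2 := congrArg Prod.snd (skew2 w.2)
    change star _ = _
    ext <;> simp [a1, a2, mul_assoc]⟩)
  map_add' w w' := by ext <;> simp [mul_add, add_mul, Finset.sum_add_distrib]
  map_smul' r w := by ext <;> simp [Finset.smul_sum, smul_comm r]

lemma geo_inj {d : ℕ} {τ : D1} (hτ : τ ∈ unitary D1) {s : ℝ} (hd : 0 < d) (h0 : 0 ≤ s)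
    (h1 : s < 1) (w : S.W) (h : S.geo d τ s w = 0) : w = 0 := by
  set α := w.2.1.1
  let f : ℕ → D1 := fun i => s ^ i • (τ ^ i * α * star τ ^ i)
  have h2 : ∑ i ∈ Finset.range d, f i = 0 := congrArg (fun t : S.W => t.2.1.1) h
  have h3 : ∑ i ∈ Finset.range d, f (i + 1) = s • (τ * (∑ i ∈ Finset.range d, f i) * star τ) := by
    rw [Finset.mul_sum, Finset.sum_mul, Finset.smul_sum]
    refine Finset.sum_congr rfl fun i _ => ?_
    simp only [f, pow_succ' s, pow_succ' τ, pow_succ (star τ), mul_smul_comm, smul_mul_assoc,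
      smul_smul, mul_assoc]
  have h4 := (Finset.sum_range_succ f d).symm.trans (Finset.sum_range_succ' f d)
  rw [h3, h2] at h4
  simp only [f, pow_zero, one_smul, one_mul, mul_one, mul_zero, zero_mul, smul_zero,
    zero_add] at h4
  have hu := S.blk_unitary (pow_mem hτ d) (one_mem (unitary D2))
  have h5 : S.blk (α, 0) = s ^ d • (S.blk (τ ^ d, 1) * S.blk (α, 0) * star (S.blk (τ ^ d, 1))) := by
    rw [← map_star, ← map_mul, ← map_mul, ← map_smul]
    congr 1
    ext
    · simpa using h4.symm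
    · simp
  have h6 : S.blk (α, 0) = S.blk 0 := by
    rw [map_zero]
    by_contra hn
    have p := S.pos _ hn
    set Z := S.blk (α, 0)
    set u := S.blk (τ ^ d, 1)
    have : S.T (star Z * Z) = s ^ d * s ^ d * S.T (star Z * Z) := by
      conv_lhs => rw [h5]
      rw [star_smul, star_trivial, smul_mul_smul_comm, map_smul, smul_eq_mul, star_mul, star_mul,
        star_star, S.comm]
      simp only [mul_assoc]
      rw [← mul_assoc (star u) u, hu.1, one_mul, ← mul_assoc u, S.comm (u * Z)]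
      simp only [mul_assoc]
      rw [← mul_assoc (star u) u, hu.1, one_mul]
    have q1 : s ^ d < 1 := pow_lt_one₀ h0 h1 hd.ne'
    have q0 : 0 ≤ s ^ d := pow_nonneg h0 d
    have : s ^ d * s ^ d < 1 := mul_lt_one_of_nonneg_of_lt_one_left q0 q1 q1.le
    nlinarith
  exact Prod.ext (congrArg Prod.fst h :) (Subtype.ext (Prod.ext (congrArg Prod.fst (S.inj h6) :)
    (congrArg (fun t : S.W => t.2.1.2) h :)))

lemma det_geo {d : ℕ} {τ : D1} (hτ : τ ∈ unitary D1) (hd : 0 < d) :
    0 ≤ LinearMap.det (S.geo d τ 1) := by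
  refine det_nonneg (fun w => ?_) ?_ fun t => S.geo_inj hτ hd
  · refine continuous_const.prodMk (Continuous.subtype_mk (Continuous.prodMk ?_ continuous_const) _)
    fun_prop
  · have : S.geo d τ 0 = LinearMap.id := LinearMap.ext fun w => by
      obtain ⟨d, rfl⟩ := Nat.exists_eq_succ_of_ne_zero hd.ne'
      ext <;> simp [geo, Finset.sum_range_succ']
    simp [this]

lemma L_pow (d : ℕ) (x : unitary ((D1 × D2) × B)) : S.L (S.mdl d) x =
    S.L (S.mdl 1) ((x.1.1.1 ^ d, x.1.1.2), x.1.2) ∘ₗ S.geo d x.1.1.1 1 := by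
  refine LinearMap.ext fun w => ?_
  obtain ⟨D, h1, h2⟩ := fderiv_pow_geo (u11 x) w.2.1.1 d
  have e : S.Psi (S.mdl d) = S.Psi (S.mdl 1) ∘ fun y => ((y.1.1 ^ d, y.1.2), y.2) := by
    funext y; simp [Psi, mdl, E]
  have h3 : HasFDerivAt (fun y : (D1 × D2) × B => ((y.1.1 ^ d, y.1.2), y.2)) _ x.1 :=
    ((h1.comp x.1 hasFDerivAt_fst.fst).prodMk hasFDerivAt_fst.snd).prodMk hasFDerivAt_snd
  have h4 := (((S.contDiff_Psi (S.contDiff_mdl 1)).differentiable two_ne_zero _).hasFDerivAt.comp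
    x.1 h3).fderiv
  simp only [L, LinearMap.comp_apply, ContinuousLinearMap.coe_coe, LinearMap.mulRight_apply]
  rw [e, h4, ContinuousLinearMap.comp_apply]
  congr 2
  ext <;> simp [emb_apply, h2, geo]

theorem TL (c1 : Conn D1) (c2 : Conn D2) {d : ℕ} (hd : 0 < d) {Φ : D1 → B} (hc : Continuous Φ)
    (hu : ∀ τ ∈ unitary D1, Φ τ ∈ unitary B) (h : Htp Φ (S.mdl d)) :
    ∃ τ ∈ unitary D1, ∃ q ∈ unitary B,
      Φ τ * (star q * S.blk (1, 0) * q) = star q * S.blk (1, 0) * q := by
  have : CompactSpace (unitary B) := compact_unitary S.T S.pos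
  have : CompactSpace (unitary ((D1 × D2) × B)) := compact_unitary
    ((S.T ∘ₗ S.blk.toAlgHom.toLinearMap).coprod S.T) fun x hx => by
      change 0 < S.T (S.blk (star x.1 * x.1)) + S.T (star x.2 * x.2)
      rw [map_mul, map_star]
      have p : ∀ y, 0 ≤ S.T (star y * y) := fun y => by
        by_cases h : y = 0
        · simp [h]
        · exact (S.pos y h).le
      by_cases h2 : x.2 = 0
      · exact add_pos_of_pos_of_nonneg (S.pos _ fun h => hx (Prod.ext (S.inj (by simpa)) h2)) (p _)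
      · exact add_pos_of_nonneg_of_pos (p _) (S.pos _ h2)
  borelize ↥(unitary ((D1 × D2) × B))
  let μ : Measure (unitary ((D1 × D2) × B)) := Measure.haar
  have hT := S.T.continuous_of_finiteDimensional
  have hP := fun d => (S.contDiff_Psi (S.contDiff_mdl d)).continuous
  have hD := fun d => (cont_det (S.cont_L (S.contDiff_mdl d))).comp
    (continuous_subtype_val (p := (· ∈ unitary ((D1 × D2) × B))))
  by_contra hn
  obtain ⟨k0, p0, q0⟩ := small (h := fun Y : unitary B => S.T 1 - S.T Y) (by fun_prop)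
    (U := {Y | ‖Y.1 - 1‖ + ‖star Y.1 - 1‖ < 2}) (isOpen_lt (by fun_prop) continuous_const)
    fun Y hY => S.gap_pos Y.2 fun h => hY (by simp [h])
  obtain ⟨k1, p1, q1⟩ := small
    (h := fun x : unitary ((D1 × D2) × B) => S.T 1 - S.T (S.Psi (S.mdl 1) x))
    (continuous_const.sub (hT.comp ((hP 1).comp continuous_subtype_val)))
    (isOpen_lt (continuous_const (y := 0)) (hD 1))
    fun x hx => S.gap_pos (mul_mem (S.mdl_unitary 1 (u11 x)) (S.E_unitary x))
      fun h => hx (S.det_fibre_pos c1 c2 x h)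
  obtain ⟨k2, p2, q2⟩ := small (h := fun x : unitary ((D1 × D2) × B) => S.T 1 - S.T (S.Psi Φ x))
    (continuous_const.sub (hT.comp (((hc.comp continuous_fst.fst).mul
      S.contDiff_E.continuous).comp continuous_subtype_val))) isOpen_empty
    fun x _ => S.gap_pos (mul_mem (hu _ (u11 x)) (S.E_unitary x)) fun h => hn
      ⟨_, u11 x, _, u2 x, by
        have e : S.blk (1, 0) = S.blk (1, x.1.1.2) * (x.1.2 * star x.1.2) * S.blk (1, 0) := by
          rw [(u2 x).2, mul_one, ← map_mul]; simp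
        conv_lhs => rw [e]
        rw [← one_mul (star x.1.2 * S.blk (1, 0) * x.1.2), ← h]
        simp only [Psi, E, mul_assoc]⟩
  set c := min k0 (min k1 k2)
  have hc0 : 0 < c := lt_min p0 (lt_min p1 p2)
  have e : ∀ {Φ Φ' : D1 → B}, Htp Φ Φ' → S.I μ c Φ = S.I μ c Φ' := by
    intro Φ Φ' h
    induction h with
    | rel _ _ h =>
      exact S.I_eq_of_hty μ (fun Y hY hl => q0 ⟨Y, hY⟩ (hl.trans_le (min_le_left _ _))) h
    | refl => rfl
    | symm _ _ _ ih => exact ih.symm
    | trans _ _ _ _ _ i1 i2 => exact i1.trans i2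
  have z : S.I μ c Φ = 0 := by
    refine integral_eq_zero_of_ae (Filter.Eventually.of_forall fun x => ?_)
    have : S.bump c (S.Psi Φ x) = 0 := expNegInvGlue.zero_of_nonpos (sub_nonpos.mpr
      (not_lt.mp fun hl => q2 x (hl.trans_le ((min_le_right _ _).trans (min_le_right _ _)))))
    simp [this]
  have hb : Continuous fun x : unitary ((D1 × D2) × B) =>
      S.bump c (S.Psi (S.mdl d) x) * LinearMap.det (S.L (S.mdl d) x) :=
    ((expNegInvGlue.contDiff (n := 0)).continuous.comp (continuous_const.sub (continuous_const.sub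
      (hT.comp ((hP d).comp continuous_subtype_val))))).mul (hD d)
  have u0 : (((1, -1), S.blk (1, 1)) : (D1 × D2) × B) ∈ unitary _ := by
    rw [Prod.mk_one_one, map_one]
    refine ⟨?_, ?_⟩ <;> ext <;> simp
  refine (integral_pos_of_integrable_nonneg_nonzero (x := ⟨_, u0⟩) hb (integrable_cont μ hb)
    (fun x => ?_) ?_).ne' ((e h).symm.trans z)
  · by_cases hl : S.T 1 - S.T (S.Psi (S.mdl d) x) < c
    · refine mul_nonneg (expNegInvGlue.nonneg _) ?_
      rw [L_pow, LinearMap.det_comp]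
      refine mul_nonneg (le_of_lt (q1 ⟨_, ?_⟩ ?_)) (S.det_geo (u11 x) hd)
      · exact ⟨Prod.ext (Prod.ext (pow_mem (u11 x) d).1 (u12 x).1) (u2 x).1,
          Prod.ext (Prod.ext (pow_mem (u11 x) d).2 (u12 x).2) (u2 x).2⟩
      · refine lt_of_eq_of_lt ?_ (hl.trans_le ((min_le_right _ _).trans (min_le_left _ _)))
        simp [Psi, mdl, E]
    · have : S.bump c (S.Psi (S.mdl d) x) = 0 :=
        expNegInvGlue.zero_of_nonpos (sub_nonpos.mpr (not_lt.mp hl))
      simp [this]
  · refine mul_ne_zero (expNegInvGlue.pos_of_pos ?_).ne' ?_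
    · simpa [Psi, mdl, E, Prod.mk_one_one, S.sg_sq] using hc0
    · rw [L_pow, LinearMap.det_comp]
      refine mul_ne_zero (by simpa only [one_pow] using S.det_one_pos.ne') (det_ne fun w h => ?_)
      have h2 := congrArg (fun t : S.W => t.2.1.1) h
      simp only [geo, one_pow, star_one, one_mul, mul_one, one_smul, Finset.sum_const,
        Finset.card_range, LinearMap.coe_mk, AddHom.coe_mk, ← Nat.cast_smul_eq_nsmul ℝ] at h2
      exact Prod.ext (congrArg Prod.fst h :) (Subtype.ext (Prod.ext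
        ((smul_eq_zero.mp h2).resolve_left (by simpa using hd.ne'))
        (congrArg (fun t : S.W => t.2.1.2) h :)))

end Setup

end Vale.Agent.P174
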