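import Vale.Agent.P174.Log
import Vale.Agent.P174.Model
import Mathlib.GroupTheory.Congruence.Basic
import Mathlib.LinearAlgebra.Matrix.PosDef

/-! Homotopy calculus for maps between unitary groups. -/

namespace Vale.Agent.P174

open Function

set_option linter.unusedSectionVars false

section Gen

variable {D B B' : Type*} [NormedRing D] [NormedAlgebra ℝ D] [StarRing D]
  [NormedRing B] [NormedAlgebra ℝ B] [StarRing B] [NormedRing B'] [NormedAlgebra ℝ B'] [StarRing B']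

/-- Smooth maps sending unitaries to unitaries. -/
def Good (Φ : D → B) : Prop := ContDiff ℝ 2 Φ ∧ ∀ τ ∈ unitary D, Φ τ ∈ unitary B

lemma Good.mul {Φ Θ : D → B} (h : Good Φ) (h' : Good Θ) : Good fun τ => Φ τ * Θ τ :=
  ⟨h.1.mul h'.1, fun τ hτ => mul_mem (h.2 τ hτ) (h'.2 τ hτ)⟩

lemma good_const {u : B} (h : u ∈ unitary B) : Good fun _ : D => u := ⟨contDiff_const, fun _ _ => h⟩

lemma Htp.refl (Φ : D → B) : Htp Φ Φ := Relation.EqvGen.refl _

lemma Htp.symm {Φ Θ : D → B} (h : Htp Φ Θ) : Htp Θ Φ := Relation.EqvGen.symm _ _ h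

lemma Htp.trans {Φ Θ Ξ : D → B} (h : Htp Φ Θ) (h' : Htp Θ Ξ) : Htp Φ Ξ :=
  Relation.EqvGen.trans _ _ _ h h'

lemma Htp.map {Ω : D × B → B'} (hΩ : ContDiff ℝ 2 Ω)
    (hu : ∀ τ ∈ unitary D, ∀ b ∈ unitary B, Ω (τ, b) ∈ unitary B') {Φ Θ : D → B} (h : Htp Φ Θ) :
    Htp (fun τ => Ω (τ, Φ τ)) fun τ => Ω (τ, Θ τ) := by
  induction h with
  | rel _ _ h =>
    obtain ⟨H, h1, h2, rfl, rfl⟩ := h
    exact Relation.EqvGen.rel _ _ ⟨fun p => Ω (p.2, H p), hΩ.comp (contDiff_snd.prodMk h1),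
      fun s τ hτ => hu τ hτ _ (h2 s τ hτ), rfl, rfl⟩
  | refl => exact Htp.refl _
  | symm _ _ _ ih => exact ih.symm
  | trans _ _ _ _ _ i1 i2 => exact i1.trans i2

lemma Htp.mul {Φ Φ' Θ Θ' : D → B} (h : Htp Φ Φ') (h' : Htp Θ Θ') (g : Good Φ') (g' : Good Θ) :
    Htp (fun τ => Φ τ * Θ τ) fun τ => Φ' τ * Θ' τ :=
  (h.map (Ω := fun p => p.2 * Θ p.1) (contDiff_snd.mul (g'.1.comp contDiff_fst))
    fun τ hτ _ hb => mul_mem hb (g'.2 τ hτ)).trans
  (h'.map (Ω := fun p => Φ' p.1 * p.2) ((g.1.comp contDiff_fst).mul contDiff_snd)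
    fun τ hτ _ hb => mul_mem (g.2 τ hτ) hb)

lemma htp_of_eq {Φ Θ : D → B} (g : Good Φ) (g' : Good Θ) (h : ∀ τ ∈ unitary D, Φ τ = Θ τ) :
    Htp Φ Θ :=
  Relation.EqvGen.rel _ _ ⟨fun p => Φ p.2 + p.1 • (Θ p.2 - Φ p.2),
    (g.1.comp contDiff_snd).add
      (contDiff_fst.smul ((g'.1.comp contDiff_snd).sub (g.1.comp contDiff_snd))),
    fun s τ hτ => by simpa [h τ hτ] using g'.2 τ hτ, by simp, by simp⟩

lemma htp_const (c : Conn B) {u v : B} (hu : u ∈ unitary B) (hv : v ∈ unitary B) {Φ : D → B}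
    (g : Good Φ) : Htp (fun τ => u * Φ τ * v) Φ := by
  obtain ⟨γ, a1, a2, a3, a4⟩ := c u hu
  obtain ⟨η, b1, b2, b3, b4⟩ := c v hv
  exact Htp.symm (Relation.EqvGen.rel _ _ ⟨fun p => γ p.1 * Φ p.2 * η p.1,
    ((a1.comp contDiff_fst).mul (g.1.comp contDiff_snd)).mul (b1.comp contDiff_fst),
    fun s τ hτ => mul_mem (mul_mem (a4 s) (g.2 τ hτ)) (b4 s), by simp [a2, b2], by simp [a3, b3]⟩)

lemma pi_unitary {J : Type*} {x : J → B} (h : ∀ j, x j ∈ unitary B) : x ∈ unitary (J → B) :=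
  ⟨funext fun j => (h j).1, funext fun j => (h j).2⟩

lemma htp_pi {J : Type*} [Fintype J] {Φ Θ : D → J → B} (g : ∀ j, Good (Φ · j))
    (g' : ∀ j, Good (Θ · j)) (h : ∀ j, Htp (Φ · j) (Θ · j)) : Htp Φ Θ := by
  classical
  have key : ∀ s : Finset J, Htp Φ fun τ j => if j ∈ s then Θ τ j else Φ τ j := by
    intro s
    induction s using Finset.induction_on with
    | empty => simpa using Htp.refl Φ
    | insert i s hi ih =>
      refine ih.trans ?_
      have := (h i).map (B' := J → B)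
        (Ω := fun p j => if j = i then p.2 else if j ∈ s then Θ p.1 j else Φ p.1 j)
        (contDiff_pi.mpr fun j => by
          split_ifs
          exacts [contDiff_snd, (g' j).1.comp contDiff_fst, (g j).1.comp contDiff_fst])
        fun τ hτ b hb => pi_unitary fun j => by
          dsimp only
          split_ifs
          exacts [hb, (g' j).2 τ hτ, (g j).2 τ hτ]
      convert this using 3 with τ j τ j
      · by_cases hj : j = i <;> simp [hj, hi]
      · by_cases hj : j = i <;> simp [hj]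
  simpa using key Finset.univ

end Gen

open scoped Matrix Matrix.Norms.Operator

variable {E κ : Type*} [Fintype E] [DecidableEq E] [Fintype κ] [DecidableEq κ]

/-- A unitary placed along an isometry. -/
def hat (ι : Matrix E κ ℂ) (y : Matrix κ κ ℂ) : Matrix E E ℂ := 1 + ι * (y - 1) * ιᴴ

lemma hat_mul {ι : Matrix E κ ℂ} (h : ιᴴ * ι = 1) (y y' : Matrix κ κ ℂ) :
    hat ι (y * y') = hat ι y * hat ι y' := by
  have : ι * (y - 1) * ιᴴ * (ι * (y' - 1) * ιᴴ) = ι * ((y - 1) * (y' - 1)) * ιᴴ := by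
    simp only [Matrix.mul_assoc]
    rw [← Matrix.mul_assoc ιᴴ, h, Matrix.one_mul]
  simp only [hat, add_mul, mul_add, this, one_mul, mul_one, add_assoc, ← Matrix.add_mul,
    ← Matrix.mul_add]
  congr 3
  noncomm_ring

lemma hat_star (ι : Matrix E κ ℂ) (y : Matrix κ κ ℂ) : star (hat ι y) = hat ι (star y) := by
  simp [hat, Matrix.star_eq_conjTranspose, Matrix.mul_assoc]

lemma hat_unitary {ι : Matrix E κ ℂ} (h : ιᴴ * ι = 1) {y : Matrix κ κ ℂ}
    (hy : y ∈ unitary (Matrix κ κ ℂ)) : hat ι y ∈ unitary (Matrix E E ℂ) := by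
  refine ⟨?_, ?_⟩ <;> rw [hat_star, ← hat_mul h]
  · simp [hy.1, hat]
  · simp [hy.2, hat]

lemma contDiff_conj (ι : Matrix E κ ℂ) : ContDiff ℝ 2 fun y : Matrix κ κ ℂ => ι * y * ιᴴ :=
  (LinearMap.toContinuousLinearMap (𝕜 := ℝ)
    { toFun := fun y : Matrix κ κ ℂ => ι * y * ιᴴ
      map_add' := fun a b => by simp [Matrix.mul_add, Matrix.add_mul]
      map_smul' := fun a b => by simp }).contDiff

variable {D : Type*} [NormedRing D] [NormedAlgebra ℝ D] [StarRing D]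

lemma good_hat {ι : Matrix E κ ℂ} (h : ιᴴ * ι = 1) {Θ : D → Matrix κ κ ℂ} (g : Good Θ) :
    Good fun τ => hat ι (Θ τ) :=
  ⟨contDiff_const.add ((contDiff_conj ι).comp (g.1.sub contDiff_const)),
    fun τ hτ => hat_unitary h (g.2 τ hτ)⟩

lemma flip_eq_zero {F : Type*} {ι : Matrix E κ ℂ} {ι' : Matrix E F ℂ} (ho : ιᴴ * ι' = 0) :
    ι'ᴴ * ι = 0 := by
  simpa using congrArg Matrix.conjTranspose ho

lemma hat_htp {ι ι' : Matrix E κ ℂ} (h : ιᴴ * ι = 1) (h' : ι'ᴴ * ι' = 1) (ho : ιᴴ * ι' = 0)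
    {Θ : D → Matrix κ κ ℂ} (g : Good Θ) : Htp (fun τ => hat ι' (Θ τ)) fun τ => hat ι (Θ τ) := by
  have ho' := flip_eq_zero ho
  set u := 1 - (ι - ι') * (ι - ι')ᴴ with hu
  have e1 : (ι - ι')ᴴ * (ι - ι') = 1 + 1 := by
    simp [Matrix.sub_mul, Matrix.mul_sub, h, h', ho, ho']
  have e2 : u * ι = ι' := by
    rw [hu, Matrix.sub_mul, Matrix.mul_assoc]
    simp [Matrix.sub_mul, h, ho']
  have e3 : uᴴ = u := by
    rw [hu, Matrix.conjTranspose_sub, Matrix.conjTranspose_mul, Matrix.conjTranspose_conjTranspose,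
      Matrix.conjTranspose_one]
  have e4 : u * u = 1 := by
    have : (ι - ι') * (ι - ι')ᴴ * ((ι - ι') * (ι - ι')ᴴ) =
        (ι - ι') * (ι - ι')ᴴ + (ι - ι') * (ι - ι')ᴴ := by
      rw [Matrix.mul_assoc, ← Matrix.mul_assoc _ (ι - ι'), e1, Matrix.add_mul, Matrix.mul_add,
        Matrix.one_mul]
    rw [hu, sub_mul, mul_sub, mul_sub, this]
    simp
  have uu : u ∈ unitary (Matrix E E ℂ) := by
    refine ⟨?_, ?_⟩ <;> rw [Matrix.star_eq_conjTranspose, e3, e4]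
  convert htp_const conn_matrix uu uu (good_hat h g) using 2 with τ
  rw [hat, hat, mul_add, add_mul, mul_one, e4, ← e2, Matrix.conjTranspose_mul, e3]
  simp only [Matrix.mul_assoc]

lemma hat_comm {ι ι' : Matrix E κ ℂ} (ho : ιᴴ * ι' = 0) (y y' : Matrix κ κ ℂ) :
    hat ι y * hat ι' y' = hat ι' y' * hat ι y := by
  have ho' := flip_eq_zero ho
  simp only [hat, add_mul, mul_add, one_mul, mul_one, Matrix.mul_assoc]
  simp [← Matrix.mul_assoc ιᴴ, ← Matrix.mul_assoc ι'ᴴ, ho, ho', add_right_comm]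

/-- Good maps form a monoid. -/
def goodM (D B : Type*) [NormedRing D] [NormedAlgebra ℝ D] [StarRing D]
    [NormedRing B] [NormedAlgebra ℝ B] [StarRing B] : Submonoid (D → B) where
  carrier := {Θ | Good Θ}
  mul_mem' := Good.mul
  one_mem' := good_const (one_mem _)

lemma prod_count {M J P : Type*} [CommMonoid M] [Fintype J] [DecidableEq J] (X : J × Bool → M)
    (e1 : ∀ i, X (i, true) * X (i, false) = 1) (s : Finset P) (idx : P → J × Bool) (j : J) (d : ℕ)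
    (hc : ∀ i, (s.filter (idx · = (i, true))).card =
      (s.filter (idx · = (i, false))).card + if i = j then d else 0) :
    ∏ p ∈ s, X (idx p) = X (j, true) ^ d := by
  rw [← Finset.prod_fiberwise' s idx X, Fintype.prod_prod_type]
  simp only [Finset.prod_const, Fintype.prod_bool, hc, pow_add]
  rw [Finset.prod_congr rfl (g := fun i => if i = j then X (i, true) ^ d else 1)]
  · simp
  · intro i _
    rw [mul_right_comm, ← mul_pow, e1, one_pow, one_mul, pow_ite, pow_zero]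

/-- Stable homotopy as a congruence. -/
def hcon (D : Type*) [NormedRing D] [NormedAlgebra ℝ D] [StarRing D] {ι0 : Matrix E κ ℂ}
    (h0 : ι0ᴴ * ι0 = 1) : Con (goodM D (Matrix κ κ ℂ)) where
  r := fun Θ Θ' => Htp (fun τ => hat ι0 (Θ.1 τ)) fun τ => hat ι0 (Θ'.1 τ)
  iseqv := ⟨fun _ => Htp.refl _, Htp.symm, Htp.trans⟩
  mul' := fun {a b a' b'} h h' => by
    simpa only [Submonoid.coe_mul, Pi.mul_apply, hat_mul h0] using
      Htp.mul h h' (good_hat h0 b.2) (good_hat h0 a'.2)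

lemma hcon_eq {ι0 : Matrix E κ ℂ} (h0 : ι0ᴴ * ι0 = 1) (a b : goodM D (Matrix κ κ ℂ)) :
    (hcon D h0).mk' a = (hcon D h0).mk' b ↔
      Htp (fun τ => hat ι0 (a.1 τ)) fun τ => hat ι0 (b.1 τ) := (hcon D h0).eq

lemma hcon_comm {ι0 ι1 : Matrix E κ ℂ} (h0 : ι0ᴴ * ι0 = 1) (h1 : ι1ᴴ * ι1 = 1)
    (h01 : ι0ᴴ * ι1 = 0) (a b : (hcon D h0).Quotient) : a * b = b * a := by
  obtain ⟨a, rfl⟩ := (hcon D h0).mk'_surjective a
  obtain ⟨b, rfl⟩ := (hcon D h0).mk'_surjective b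
  rw [← map_mul, ← map_mul, hcon_eq]
  simp only [Submonoid.coe_mul, Pi.mul_apply, hat_mul h0]
  refine (Htp.mul (Htp.refl _) (hat_htp h0 h1 h01 b.2).symm (good_hat h0 a.2)
    (good_hat h0 b.2)).trans ?_
  simp only [hat_comm h01]
  exact Htp.mul (hat_htp h0 h1 h01 b.2) (Htp.refl _) (good_hat h0 b.2) (good_hat h0 a.2)

lemma hat_insert {P : Type*} [DecidableEq P] (ι : P → Matrix E κ ℂ)
    (a2 : ∀ p p', p ≠ p' → (ι p)ᴴ * ι p' = 0) (y : P → Matrix κ κ ℂ) {p : P} {s : Finset P}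
    (hp : p ∉ s) : 1 + ∑ p ∈ insert p s, ι p * (y p - 1) * (ι p)ᴴ =
      hat (ι p) (y p) * (1 + ∑ p ∈ s, ι p * (y p - 1) * (ι p)ᴴ) := by
  have : ∑ q ∈ s, ι p * (y p - 1) * (ι p)ᴴ * (ι q * (y q - 1) * (ι q)ᴴ) = 0 := by
    refine Finset.sum_eq_zero fun q hq => ?_
    simp only [Matrix.mul_assoc]
    rw [← Matrix.mul_assoc (ι p)ᴴ, a2 p q (by rintro rfl; exact hp hq)]
    simp
  rw [Finset.sum_insert hp, hat, add_mul, one_mul, mul_add, mul_one, Finset.mul_sum, this]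
  abel

theorem htp_sum {J P : Type*} [Fintype J] [DecidableEq J] {ι0 ι1 : Matrix E κ ℂ}
    (h0 : ι0ᴴ * ι0 = 1) (h1 : ι1ᴴ * ι1 = 1) (h01 : ι0ᴴ * ι1 = 0) (x : J × Bool → D → Matrix κ κ ℂ)
    (hx : ∀ t, Good (x t)) (hx1 : ∀ i, ∀ τ ∈ unitary D, x (i, true) τ * x (i, false) τ = 1)
    (s : Finset P) (idx : P → J × Bool) (ι : P → Matrix E κ ℂ) (a1 : ∀ p, (ι p)ᴴ * ι p = 1)
    (a2 : ∀ p p', p ≠ p' → (ι p)ᴴ * ι p' = 0) (a3 : ∀ p, ι0ᴴ * ι p = 0) (j : J) (d : ℕ)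
    (hc : ∀ i, (s.filter (idx · = (i, true))).card =
      (s.filter (idx · = (i, false))).card + if i = j then d else 0) :
    Good (fun τ => 1 + ∑ p ∈ s, ι p * (x (idx p) τ - 1) * (ι p)ᴴ) ∧
    Htp (fun τ => 1 + ∑ p ∈ s, ι p * (x (idx p) τ - 1) * (ι p)ᴴ)
      fun τ => hat ι0 (x (j, true) τ ^ d) := by
  classical
  let : CommMonoid (hcon D h0).Quotient :=
    { (inferInstance : Monoid (hcon D h0).Quotient) with mul_comm := hcon_comm h0 h1 h01 }
  let X : J × Bool → (hcon D h0).Quotient := fun t => (hcon D h0).mk' ⟨x t, hx t⟩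
  have key : ∀ s : Finset P, Good (fun τ => 1 + ∑ p ∈ s, ι p * (x (idx p) τ - 1) * (ι p)ᴴ) ∧
      ∃ Θ, (hcon D h0).mk' Θ = ∏ p ∈ s, X (idx p) ∧
      Htp (fun τ => 1 + ∑ p ∈ s, ι p * (x (idx p) τ - 1) * (ι p)ᴴ) fun τ => hat ι0 (Θ.1 τ) := by
    intro s
    induction s using Finset.induction_on with
    | empty =>
      exact ⟨by simpa using good_const (one_mem _), 1, rfl, by simpa [hat] using Htp.refl _⟩
    | insert p s hp ih =>
      obtain ⟨g, Θ, e, h⟩ := ih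
      simp only [hat_insert ι a2 _ hp]
      refine ⟨(good_hat (a1 p) (hx _)).mul g, ⟨x (idx p), hx _⟩ * Θ, ?_, ?_⟩
      · rw [Finset.prod_insert hp, map_mul, e]
      · simpa only [Submonoid.coe_mul, Pi.mul_apply, hat_mul h0] using
          Htp.mul (hat_htp h0 (a1 p) (a3 p) (hx _)) h (good_hat h0 (hx _)) g
  obtain ⟨g, Θ, e, h⟩ := key s
  refine ⟨g, h.trans ?_⟩
  have e1 : ∀ i, X (i, true) * X (i, false) = 1 := fun i =>
    (map_mul (hcon D h0).mk' _ _).symm.trans (((hcon_eq h0 _ _).mpr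
      (htp_of_eq (good_hat h0 ((hx _).mul (hx _))) (good_hat h0 (good_const (one_mem _)))
        fun τ hτ => congrArg (hat ι0) (hx1 i τ hτ))).trans (map_one _))
  rw [prod_count X e1 s idx j d hc] at e
  simpa using (hcon_eq h0 _ _).mp (e.trans (map_pow (hcon D h0).mk' _ d).symm)

end Vale.Agent.P174
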