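import Vale.Agent.P174.Frame
import Mathlib.Analysis.CStarAlgebra.Matrix
import Mathlib.Analysis.SpecialFunctions.ContinuousFunctionalCalculus.ExpLog.Basic
import Mathlib.Analysis.CStarAlgebra.ContinuousFunctionalCalculus.Basic
import Mathlib.Analysis.Matrix.Normed
import Mathlib.LinearAlgebra.Eigenspace.Minpoly
import Mathlib.Analysis.SpecialFunctions.Complex.Arg

/-! Unitary matrices are exponentials. -/

namespace Vale.Agent.P174

variable {n : Type*} [Fintype n] [DecidableEq n]

open scoped Matrix.Norms.L2Operator in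
lemma exists_log {u : Matrix n n ℂ} (hu : u ∈ unitary (Matrix n n ℂ)) :
    ∃ ξ : Matrix n n ℂ, star ξ = -ξ ∧ NormedSpace.exp ξ = u := by
  have hn : IsStarNormal u := ⟨hu.1.trans hu.2.symm⟩
  have hf : (spectrum ℂ u).Finite := Matrix.finite_spectrum u
  let f : ℂ → ℂ := fun z => Complex.I * z.arg
  have hc : ∀ g : ℂ → ℂ, ContinuousOn g (spectrum ℂ u) := fun g => hf.continuousOn g
  refine ⟨cfc f u, ?_, ?_⟩
  · rw [← cfc_star, ← cfc_neg]
    congr 1
    funext z
    simp [f]
  · rw [← CFC.complex_exp_eq_normedSpace_exp, ← cfc_comp' _ _ _ (hg := by fun_prop) (hf := hc f)]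
    conv_rhs => rw [← cfc_id' ℂ u]
    refine cfc_congr fun z hz => ?_
    have := Complex.norm_mul_exp_arg_mul_I z
    rw [spectrum.norm_eq_one_of_unitary hu hz] at this
    simpa [f, mul_comm] using this

lemma conn_of_log {A : Type*} [NormedRing A] [NormedAlgebra ℝ A] [StarRing A] [ContinuousStar A]
    [StarModule ℝ A] [CompleteSpace A]
    (h : ∀ u ∈ unitary A, ∃ ξ : A, star ξ = -ξ ∧ NormedSpace.exp ξ = u) : Conn A := by
  intro u hu
  obtain ⟨ξ, h1, rfl⟩ := h u hu
  let : NormedAlgebra ℚ A := NormedAlgebra.restrictScalars ℚ ℝ A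
  refine ⟨fun t => NormedSpace.exp (t • ξ), ?_, by simp, by simp, fun t =>
    NormedSpace.exp_mem_unitary_of_mem_skewAdjoint (by
      rw [skewAdjoint.mem_iff, star_smul, h1]; simp)⟩
  have : ContDiff ℝ 2 (NormedSpace.exp : A → A) :=
    contDiff_iff_contDiffAt.mpr fun x => (NormedSpace.exp_analytic x).contDiffAt
  exact this.comp (contDiff_id.smul contDiff_const)

open scoped Matrix.Norms.Operator in
instance mxStar :
    @ContinuousStar (Matrix n n ℂ) PseudoMetricSpace.toUniformSpace.toTopologicalSpace _ :=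
  inferInstanceAs (@ContinuousStar (Matrix n n ℂ) instTopologicalSpaceMatrix _)

open scoped Matrix.Norms.Operator in
lemma conn_matrix : Conn (Matrix n n ℂ) := conn_of_log fun _ hu => exists_log hu

lemma conn_pi {J : Type*} [Fintype J] {A : Type*} [NormedRing A] [NormedAlgebra ℝ A] [StarRing A]
    (h : Conn A) : Conn (J → A) := by
  intro u hu
  choose γ h1 h2 h3 h4 using fun j => h (u j) ⟨congrFun hu.1 j, congrFun hu.2 j⟩
  exact ⟨fun t j => γ j t, contDiff_pi.mpr h1, funext h2, funext h3,
    fun t => ⟨funext fun j => (h4 j t).1, funext fun j => (h4 j t).2⟩⟩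

end Vale.Agent.P174
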