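import Vale.Agent.P174.Diagram
import Vale.Agent.P174.Defs
import Mathlib.RingTheory.Localization.Integer
import Mathlib.RingTheory.Localization.FractionRing
import Mathlib.LinearAlgebra.Matrix.Rank

/-! Reduction of the general nonsingular system to the diagonal case. -/

namespace Vale.Agent.P174

open Monoid

theorem outer {G J : Type*} [Group G] [Fintype J] [DecidableEq J] [Nonempty J] {d : ℕ} (hd : 0 < d)
    (w : J → Coprod G (FreeGroup J))
    (hw : ∀ i j, (expHom G J (w i)).toAdd j = if i = j then d else 0) {g : G} (g1 : g ≠ 1)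
    (g2 : g * g = 1) (hg : Coprod.inl g ∈ Subgroup.normalClosure (Set.range w)) : False := by
  obtain ⟨V, k, h, cls, e, h1, h2⟩ := exists_balanced hd w hw hg
  choose H N hH using fun D => exists_word (h D)
  choose W M hW using fun i => exists_word (w i)
  obtain ⟨a, ha⟩ := (Set.finite_range fun D : Fin V => N D).bddAbove
  obtain ⟨L, hL⟩ := (Set.finite_range M).bddAbove
  have a1 := fun D : Fin V => hH D a (ha ⟨D, rfl⟩)
  have a2 := fun i => hW i L (hL ⟨i, rfl⟩)
  refine diagram hd e H (fun D => (a1 D).1) W (fun i => (a2 i).1)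
    (fun i j => by rw [(a2 i).2, hw]) (fun D => (cls D).elim (fun _ => (1, none)) (rw' W L))
    (fun D => by rw [h1]; rfl) g1 g2 (Eq.trans (pre_congr fun D hD => ?_) h2)
  have := h1 ⟨D, hD⟩
  simp only at this
  rw [ev_bw (a1 ⟨D, hD⟩).1, (a1 ⟨D, hD⟩).2, this]
  rcases (e ⟨D, hD⟩).1 with ⟨i, _ | _⟩
  · simp [rw', lt, ev_rv (a2 i).1, (a2 i).2]
  · simp [rw', lt, (a2 i).2]

lemma exists_exp (G : Type*) [Group G] {J : Type*} [Fintype J] [DecidableEq J] (v : J → ℤ) :
    ∃ y, expHom G J (Coprod.inr y) = Multiplicative.ofAdd v := by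
  induction v using Pi.single_induction with
  | zero => exact ⟨1, by simp⟩
  | add v v' a b =>
    obtain ⟨y, hy⟩ := a
    obtain ⟨y', hy'⟩ := b
    exact ⟨y * y', by simp [hy, hy']⟩
  | single j z =>
    refine ⟨FreeGroup.of j ^ z, ?_⟩
    rw [map_zpow, map_zpow]
    simp [expHom, ← ofAdd_zsmul, ← Pi.single_smul]

lemma exists_involution {G : Type*} [Group G] {g : G} (h : g ≠ 1) :
    ∃ (φ : G →* Equiv.Perm (G × Bool)) (t : Equiv.Perm (G × Bool)),
      φ g * (t * (φ g)⁻¹ * t⁻¹) ≠ 1 ∧
      φ g * (t * (φ g)⁻¹ * t⁻¹) * (φ g * (t * (φ g)⁻¹ * t⁻¹)) = 1 := by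
  classical
  let φ : G →* Equiv.Perm (G × Bool) :=
    { toFun := fun g => (Equiv.mulLeft g).prodCongr (Equiv.refl _)
      map_one' := by ext <;> simp
      map_mul' := fun _ _ => by ext <;> simp [mul_assoc] }
  refine ⟨φ, Equiv.swap (1, false) (1, true), ?_⟩
  have e : φ g * (Equiv.swap (1, false) (1, true) * (φ g)⁻¹ * (Equiv.swap (1, false) (1, true))⁻¹) =
      Equiv.swap (g, false) (g, true) * Equiv.swap (1, false) (1, true) := by
    rw [← mul_assoc, ← mul_assoc, ← Equiv.swap_apply_apply, Equiv.swap_inv]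
    simp [φ]
  rw [e]
  refine ⟨fun h0 => ?_, ?_⟩
  · have := congrArg (· (1, false)) h0
    simp [Equiv.swap_apply_of_ne_of_ne, h.symm] at this
  · have : Commute (Equiv.swap (g, false) (g, true)) (Equiv.swap (1, false) (1, true)) :=
      Equiv.Perm.Disjoint.commute (Equiv.Perm.disjoint_swap_swap (by simp [h]))
    rw [mul_assoc, ← mul_assoc (Equiv.swap (1, false) (1, true)), ← this.eq]
    simp [mul_assoc]

lemma exists_right_inverse {m n : ℕ} (A : Matrix (Fin m) (Fin n) ℤ)
    (h : (A.map (Int.cast : ℤ → ℚ)).rank = m) : ∃ (d : ℕ) (B : Fin n → Fin m → ℤ), 0 < d ∧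
      ∀ i l, ∑ j, A i j * B j l = if i = l then d else 0 := by
  have h1 : LinearMap.range (A.map (Int.cast : ℤ → ℚ)).mulVecLin = ⊤ :=
    Submodule.eq_top_of_finrank_eq (h.trans (by simp))
  choose x hx using fun l => LinearMap.range_eq_top.mp h1 (Pi.single l 1)
  obtain ⟨⟨b, hb⟩, h2⟩ := IsLocalization.exist_integer_multiples_of_finite (nonZeroDivisors ℤ)
    fun p : Fin n × Fin m => x p.2 p.1
  choose z hz using h2
  refine ⟨b.natAbs * b.natAbs, fun j l => b * z (j, l), ?_, fun i l => ?_⟩
  · have := Int.natAbs_pos.mpr (nonZeroDivisors.ne_zero hb)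
    positivity
  · have h3 := congrFun (hx l) i
    simp only [Matrix.mulVecLin_apply, Matrix.mulVec, dotProduct, Matrix.map_apply,
      Pi.single_apply] at h3
    have h4 : ∀ j, (z (j, l) : ℚ) = b * x l j := fun j => by simpa using hz (j, l)
    apply Int.cast_injective (α := ℚ)
    push_cast [Int.natAbs_mul_self', h4]
    rw [Finset.sum_congr rfl (g := fun j => b * b * ((A i j : ℚ) * x l j)) fun _ _ => by ring,
      ← Finset.mul_sum, h3]
    split_ifs <;> simp

theorem howie {G : Type*} [Group G] {m n : ℕ} (w : Fin m → Coprod G (FreeGroup (Fin n)))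
    (h : (Matrix.of fun i j => (expSum (w i) j : ℚ)).rank = m) {g : G}
    (hg : Coprod.inl g ∈ Subgroup.normalClosure (Set.range w)) : g = 1 := by
  by_contra g1
  rcases isEmpty_or_nonempty (Fin m) with hm | hm
  · rw [Set.range_eq_empty, Subgroup.normalClosure_empty, Subgroup.mem_bot] at hg
    exact g1 (Coprod.inl_injective (hg.trans (map_one _).symm))
  obtain ⟨d, B, hd, hB⟩ := exists_right_inverse (Matrix.of fun i j => expSum (w i) j) h
  obtain ⟨φ, t, t1, t2⟩ := exists_involution g1
  choose y hy using fun j => exists_exp (Equiv.Perm (G × Bool)) (B j)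
  let θ := Coprod.map φ (FreeGroup.lift y)
  have h1 : ∀ x l, (expHom _ _ (θ x)).toAdd l = ∑ j, (expHom _ _ x).toAdd j * B j l := by
    intro x l
    induction x using Coprod.induction_on with
    | inl g => simp [θ, expHom]
    | inr x =>
      induction x using FreeGroup.induction_on with
      | C1 => simp
      | of j =>
        rw [Coprod.map_apply_inr, FreeGroup.lift_apply_of, hy]
        simp [expHom, Pi.single_apply]
      | inv_of j ih => simp only [map_inv, toAdd_inv, Pi.neg_apply, ih, neg_mul, Finset.sum_neg_distrib]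
      | mul x y a b =>
        simp only [map_mul, toAdd_mul, Pi.add_apply, a, b, add_mul, Finset.sum_add_distrib]
    | mul x y a b =>
      simp only [map_mul, toAdd_mul, Pi.add_apply, a, b, add_mul, Finset.sum_add_distrib]
  have h2 : Coprod.inl (φ g) ∈ Subgroup.normalClosure (Set.range fun i => θ (w i)) :=
    Subgroup.normalClosure_le_normal (N := (Subgroup.normalClosure _).comap θ)
      (by rintro _ ⟨i, rfl⟩; exact Subgroup.subset_normalClosure ⟨i, rfl⟩) hg
  refine outer hd (fun i => θ (w i)) (fun i l => (h1 _ _).trans (hB i l)) t1 t2 ?_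
  simp only [map_mul, map_inv]
  exact mul_mem h2 (Subgroup.normalClosure_normal.conj_mem _ (inv_mem h2) _)

end Vale.Agent.P174
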