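import Mathlib.GroupTheory.FreeGroup.Reduce
import Mathlib.LinearAlgebra.FiniteDimensional.Lemmas
import Mathlib.LinearAlgebra.Complex.Module

/-! Cancellation pairings of a trivial word in a free group. -/

namespace Vale.Agent.P174

open Module

/-- Product of the first `k` letters. -/
def pre {H : Type*} [Monoid H] (f : ℕ → H) : ℕ → H
  | 0 => 1
  | k + 1 => pre f k * f k

/-- Formal inverse of a signed generator. -/
def inv {X : Type*} (p : X × Bool) : X × Bool := (p.1, !p.2)

@[simp] lemma inv_inv' {X : Type*} (p : X × Bool) : inv (inv p) = p := by simp [inv]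

lemma inv_ne {X : Type*} (p : X × Bool) : inv p ≠ p := by
  intro h; simpa [inv] using congrArg Prod.snd h

/-- Value of an optional signed generator. -/
def lt {X H : Type*} [Group H] (φ : X → H) (o : Option (X × Bool)) : H :=
  o.elim 1 fun p => cond p.2 (φ p.1) (φ p.1)⁻¹

lemma lt_inv {X H : Type*} [Group H] (φ : X → H) (o : Option (X × Bool)) :
    lt φ (o.map inv) = (lt φ o)⁻¹ := by
  rcases o with _ | ⟨x, _ | _⟩ <;> simp [lt, inv]

variable {X : Type*}

lemma lt_of (p : X × Bool) : lt FreeGroup.of (some p) = FreeGroup.mk [p] := by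
  rcases p with ⟨x, _ | _⟩ <;> rfl

lemma exists_pair (col : ℕ → Option (X × Bool)) (n : ℕ)
    (h : pre (fun c => lt FreeGroup.of (col c)) n = 1) (hc : ∃ c < n, col c ≠ none) :
    ∃ c1 c2 a, c1 < c2 ∧ c2 < n ∧ col c1 = some a ∧ col c2 = some (inv a) ∧
      ∀ c, c1 < c → c < c2 → col c = none := by
  classical
  by_contra hn
  set R := pre fun c => lt FreeGroup.of (col c) with hR
  have key : ∀ m ≤ n, ((∀ c < m, col c = none) ∧ R m = 1) ∨ ∃ c < m, ∃ a L, col c = some a ∧
      (∀ c', c < c' → c' < m → col c' = none) ∧ (R m)⁻¹.toWord = inv a :: L := by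
    intro m hm
    induction m with
    | zero => exact Or.inl ⟨by simp, rfl⟩
    | succ m ih =>
      have e : R (m + 1) = R m * lt FreeGroup.of (col m) := rfl
      rcases hb : col m with _ | b
      · rw [hb, lt, Option.elim_none, mul_one] at e
        rcases ih (by omega) with ⟨h1, h2⟩ | ⟨c, h1, a, L, h2, h3, h4⟩
        · refine Or.inl ⟨fun c hc => ?_, e.trans h2⟩
          rcases Nat.lt_succ_iff_lt_or_eq.mp hc with h | rfl
          exacts [h1 c h, hb]
        · refine Or.inr ⟨c, by omega, a, L, h2, fun c' p q => ?_, by rw [e, h4]⟩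
          rcases Nat.lt_succ_iff_lt_or_eq.mp q with h | rfl
          exacts [h3 c' p h, hb]
      · have e2 : (R (m + 1))⁻¹.toWord = FreeGroup.reduce (inv b :: (R m)⁻¹.toWord) := by
          rw [e, hb, mul_inv_rev, ← lt_inv, Option.map_some, lt_of, ← FreeGroup.toWord_mk,
            ← List.singleton_append (l := (R m)⁻¹.toWord), ← FreeGroup.mul_mk, FreeGroup.mk_toWord]
        rw [FreeGroup.reduce.cons, FreeGroup.reduce_toWord] at e2
        refine Or.inr ⟨m, by omega, b, (R m)⁻¹.toWord, hb, fun _ _ _ => by omega, ?_⟩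
        rcases ih (by omega) with ⟨h1, h2⟩ | ⟨c, h1, a, L, h2, h3, h4⟩
        · simpa [h2] using e2
        · rw [h4] at e2 ⊢
          refine e2.trans (if_neg fun hh => hn ⟨c, m, a, h1, hm, h2, ?_, h3⟩)
          rw [hb]
          congr 1
          exact Prod.ext hh.1 (by simpa [inv] using hh.2)
  obtain ⟨c, c1, c2⟩ := hc
  rcases key n le_rfl with ⟨h1, _⟩ | ⟨c, _, a, L, _, _, h4⟩
  · exact c2 (h1 c c1)
  · simp [h] at h4

lemma pre_unmark {H : Type*} [Group H] (f g : ℕ → H) {c1 c2 : ℕ} (h : c1 < c2)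
    (h1 : f c2 = (f c1)⁻¹) (h2 : ∀ c, c1 < c → c < c2 → f c = 1)
    (h3 : ∀ c, c1 ≤ c → c ≤ c2 → g c = 1) (h4 : ∀ c, c < c1 ∨ c2 < c → g c = f c) (m : ℕ) :
    pre f m = pre g m * if c1 < m ∧ m ≤ c2 then f c1 else 1 := by
  induction m with
  | zero => simp [pre]
  | succ m ih =>
    rw [pre, pre, ih]
    rcases lt_trichotomy m c1 with p | rfl | p
    · rw [h4 m (Or.inl p), if_neg (by omega), if_neg (by omega)]; simp
    · rw [h3 m le_rfl h.le, if_neg (by omega), if_pos (by omega)]
    rcases lt_trichotomy m c2 with q | rfl | q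
    · rw [h3 m p.le q.le, h2 m p q, if_pos (by omega), if_pos (by omega), mul_one, mul_one]
    · rw [h3 m p.le le_rfl, h1, if_pos (by omega), if_neg (by omega)]; simp
    · rw [h4 m (Or.inr q), if_neg (by omega), if_neg (by omega)]; simp

/-- A cyclic ordering of a finite type. -/
structure Cyc (C : Type*) where
  n : ℕ
  pos : C → ℕ
  σ : Equiv.Perm C
  npos : 0 < n
  inj : Function.Injective pos
  lt : ∀ c, pos c < n
  surj : ∀ p < n, ∃ c, pos c = p
  succ : ∀ c, pos (σ c) = if pos c + 1 = n then 0 else pos c + 1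

theorem pairing {C : Type*} [Fintype C] (O : Cyc C) (col : ℕ → Option (X × Bool))
    (h : pre (fun c => lt FreeGroup.of (col c)) O.n = 1) : ∃ π : Equiv.Perm C,
    (∀ c, π (π c) = c) ∧ (∀ c, col (O.pos (π c)) = (col (O.pos c)).map inv) ∧
    (∀ c, col (O.pos c) = none → π c = c) ∧ ∃ W : Submodule ℂ (C → ℂ),
      (∀ f ∈ W, ∀ c, f (O.σ (π c)) = f c) ∧
      (Finset.univ.filter fun c => (col (O.pos c)).isSome).card + 2 ≤ 2 * finrank ℂ W := by
  classical
  induction hN : (Finset.univ.filter fun c => (col (O.pos c)).isSome).card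
    using Nat.strong_induction_on generalizing col with | _ N ih => ?_
  subst hN
  by_cases hc : ∃ c < O.n, col c ≠ none
  swap
  · push Not at hc
    have hc' : ∀ c, col (O.pos c) = none := fun c => hc _ (O.lt c)
    obtain ⟨c, -⟩ := O.surj 0 O.npos
    refine ⟨1, fun _ => rfl, by simp [hc'], fun _ _ => rfl, Submodule.span ℂ {1}, ?_, ?_⟩
    · intro f hf c
      obtain ⟨a, rfl⟩ := Submodule.mem_span_singleton.mp hf
      simp
    · rw [finrank_span_singleton (fun h => one_ne_zero (congrFun h c))]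
      simp [hc']
  obtain ⟨p1, p2, a, h1, h2, h3, h4, h5⟩ := exists_pair col O.n h hc
  obtain ⟨c1, rfl⟩ := O.surj p1 (h1.trans h2)
  obtain ⟨c2, rfl⟩ := O.surj p2 h2
  let col' : ℕ → Option (X × Bool) := fun p => if p = O.pos c1 ∨ p = O.pos c2 then none else col p
  have hne : c1 ≠ c2 := by rintro rfl; omega
  have e0 : ∀ p, O.pos c1 ≤ p → p ≤ O.pos c2 → col' p = none := fun p a b => by
    simp only [col']
    split_ifs with hh
    exacts [rfl, h5 p (by omega) (by omega)]
  have e1 : ∀ c, c ≠ c1 → c ≠ c2 → col' (O.pos c) = col (O.pos c) := fun c a b =>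
    if_neg (by simp [O.inj.eq_iff, a, b])
  have hcard : (Finset.univ.filter fun c => (col (O.pos c)).isSome).card =
      (Finset.univ.filter fun c => (col' (O.pos c)).isSome).card + 2 := by
    have : (Finset.univ.filter fun c => (col (O.pos c)).isSome) =
        insert c1 (insert c2 (Finset.univ.filter fun c => (col' (O.pos c)).isSome)) := by
      ext c
      by_cases a : c = c1
      · simp [a, h3]
      by_cases b : c = c2
      · simp [b, h4]
      simp [a, b, e1 c a b]
    rw [this, Finset.card_insert_of_notMem (by simp [hne, col']),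
      Finset.card_insert_of_notMem (by simp [col'])]
  obtain ⟨π, a1, a2, a3, W, a4, a5⟩ := ih _ (by omega) col' (by
    have := pre_unmark (fun c => lt FreeGroup.of (col c)) (fun c => lt FreeGroup.of (col' c)) h1
      (by rw [h3, h4, ← lt_inv]; rfl) (fun c a b => by rw [h5 c a b]; rfl)
      (fun c a b => by rw [e0 c a b]; rfl)
      (fun c a => by simp only [col']; rw [if_neg (by omega)]) O.n
    rwa [h, if_neg (by omega), mul_one, eq_comm] at this) rfl
  have f0 : ∀ c, O.pos c1 ≤ O.pos c → O.pos c ≤ O.pos c2 → π c = c := fun c a b => a3 c (e0 _ a b)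
  have f1 : π c1 = c1 := f0 c1 le_rfl h1.le
  have f2 : π c2 = c2 := f0 c2 h1.le le_rfl
  have g1 : ∀ c, c ≠ c1 → π c ≠ c1 := fun c a b => a (π.injective (b.trans f1.symm))
  have g2 : ∀ c, c ≠ c2 → π c ≠ c2 := fun c a b => a (π.injective (b.trans f2.symm))
  have cases : ∀ P : C → C → Prop, P c1 c2 → P c2 c1 → (∀ c, c ≠ c1 → c ≠ c2 → P c (π c)) →
      ∀ c, P c ((π * Equiv.swap c1 c2) c) := fun P a b d c => by
    by_cases p : c = c1
    · simpa [p, f2] using a
    by_cases q : c = c2
    · simpa [q, f1] using b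
    simpa [Equiv.swap_apply_of_ne_of_ne p q] using d c p q
  let χ : C → ℂ := fun c => if O.pos c1 < O.pos c ∧ O.pos c ≤ O.pos c2 then 1 else 0
  have hW : ∀ f ∈ W, f c2 = f c1 := fun f hf => by
    have : ∀ k c, O.pos c = O.pos c1 + k → O.pos c ≤ O.pos c2 → f c = f c1 := by
      intro k
      induction k with
      | zero => intro c a _; rw [O.inj a]
      | succ k ih =>
        intro c a b
        obtain ⟨c', hc'⟩ := O.surj (O.pos c1 + k) (by omega)
        have : c = O.σ (π c') := O.inj (by
          rw [f0 c' (by omega) (by omega), O.succ, if_neg (by omega)]; omega)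
        rw [this, a4 f hf, ih c' hc' (by omega)]
    exact this (O.pos c2 - O.pos c1) c2 (by omega) le_rfl
  refine ⟨π * Equiv.swap c1 c2,
    cases (fun c d => (π * Equiv.swap c1 c2) d = c) (by simp [f1]) (by simp [f2]) fun c a b => ?_,
    cases (fun c d => col (O.pos d) = (col (O.pos c)).map inv) (by simp [h3, h4]) (by simp [h3, h4])
      fun c a b => ?_,
    cases (fun c d => col (O.pos c) = none → d = c) (by simp [h3]) (by simp [h4])
      fun c a b h => a3 c (by rwa [e1 c a b]), W ⊔ Submodule.span ℂ {χ}, fun f hf0 => ?_, ?_⟩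
  · simp [Equiv.swap_apply_of_ne_of_ne (g1 c a) (g2 c b), a1]
  · rw [← e1 c a b, ← e1 _ (g1 c a) (g2 c b), a2]
  · obtain ⟨f, hf, _, hχ, rfl⟩ := Submodule.mem_sup.mp hf0
    obtain ⟨r, rfl⟩ := Submodule.mem_span_singleton.mp hχ
    have b1 := a4 f hf c1
    have b2 := a4 f hf c2
    rw [f1] at b1
    rw [f2] at b2
    refine cases (fun c d => (f + r • χ) (O.σ d) = (f + r • χ) c) ?_ ?_ fun c a b => ?_
    · have := O.succ c2
      simp only [Pi.add_apply, Pi.smul_apply, b2, hW f hf, χ]
      rw [if_neg (by split_ifs at this <;> omega), if_neg (by omega)]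
    · have := O.succ c1
      simp only [Pi.add_apply, Pi.smul_apply, b1, hW f hf, χ]
      rw [if_pos (by split_ifs at this <;> omega), if_pos (by omega)]
    · have := O.succ (π c)
      have a' := O.inj.ne a
      have b' := O.inj.ne b
      simp only [Pi.add_apply, Pi.smul_apply, a4 f hf, χ]
      by_cases hh : O.pos c1 ≤ O.pos c ∧ O.pos c ≤ O.pos c2
      · rw [f0 c hh.1 hh.2] at this ⊢
        rw [if_pos (by split_ifs at this <;> omega), if_pos (by omega)]
      · have : ¬(O.pos c1 ≤ O.pos (π c) ∧ O.pos (π c) ≤ O.pos c2) := fun k =>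
          hh (by rwa [← a1 c, f0 _ k.1 k.2])
        rw [if_neg (by split_ifs at * <;> omega), if_neg (by omega)]
  · have : finrank ℂ W < finrank ℂ ↥(W ⊔ Submodule.span ℂ {χ}) :=
      Submodule.finrank_lt_finrank_of_lt (lt_of_le_of_ne le_sup_left fun e => by
        have := hW χ (e ▸ Submodule.mem_sup_right (Submodule.mem_span_singleton_self χ))
        simp [χ, h1] at this)
    omega

end Vale.Agent.P174
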