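import Mathlib.Analysis.Matrix.Hermitian
import Mathlib.Analysis.InnerProductSpace.Projection.Basic
import Mathlib.Analysis.InnerProductSpace.Projection.FiniteDimensional
import Mathlib.LinearAlgebra.Trace

/-! Orthogonal projections onto fixed spaces. -/

namespace Vale.Agent.P174

open scoped Matrix
open Module

variable {C : Type*} [Fintype C] [DecidableEq C]

lemma mx_ext {M N : Matrix C C ℂ} (h : ∀ x, M *ᵥ x = N *ᵥ x) : M = N :=
  Matrix.toLin'.injective (LinearMap.ext h)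

lemma exists_proj (W : Submodule ℂ (C → ℂ)) : ∃ e : Matrix C C ℂ, eᴴ = e ∧ e * e = e ∧
    e.trace = finrank ℂ W ∧ ∀ M : Matrix C C ℂ, (∀ x ∈ W, M *ᵥ x = x) → M * e = e := by
  let W' : Submodule ℂ (EuclideanSpace ℂ C) := W.comap (WithLp.linearEquiv 2 ℂ (C → ℂ)).toLinearMap
  obtain ⟨e, he⟩ := Matrix.toEuclideanLin.surjective W'.starProjection.toLinearMap
  have h0 : ∀ x, e *ᵥ x = (W'.starProjection (WithLp.toLp 2 x)).ofLp := fun x =>
    congrArg WithLp.ofLp (LinearMap.congr_fun he (WithLp.toLp 2 x))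
  have h1 : ∀ x, e *ᵥ x ∈ W := fun x => by rw [h0]; exact W'.starProjection_apply_mem _
  have h2 : ∀ x ∈ W, e *ᵥ x = x := fun x hx => by
    rw [h0, Submodule.starProjection_eq_self_iff.mpr (show WithLp.toLp 2 x ∈ W' from hx)]
  have h3 : ∀ M : Matrix C C ℂ, (∀ x ∈ W, M *ᵥ x = x) → M * e = e := fun M hM =>
    mx_ext fun x => by rw [← Matrix.mulVec_mulVec, hM _ (h1 x)]
  refine ⟨e, Matrix.isSymmetric_toEuclideanLin_iff.mp ?_, h3 e h2, ?_, h3⟩
  · rw [he]; exact W'.starProjection_isSymmetric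
  · rw [← Matrix.trace_toLin'_eq]
    exact LinearMap.IsProj.trace ⟨h1, h2⟩

lemma trace_idem {e : Matrix C C ℂ} (h : e * e = e) :
    e.trace = finrank ℂ (LinearMap.range e.toLin') := by
  rw [← Matrix.trace_toLin'_eq]
  refine LinearMap.IsProj.trace ⟨fun x => ⟨x, rfl⟩, ?_⟩
  rintro _ ⟨x, rfl⟩
  simp [h]

lemma exists_proj_inv {A B χ : Matrix C C ℂ} (hA : A * A = 1) (hB : B * B = 1) (h : χ * χ = χ)
    (cA : A * χ = χ * A) (cB : B * χ = χ * B) : ∃ e : Matrix C C ℂ, eᴴ = e ∧ e * e = e ∧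
      ((χ * A).trace.re + (χ * B).trace.re ≤ 2 * e.trace.re) ∧ A * e = e ∧ B * e = e ∧
      χ * e = e := by
  have key : ∀ A : Matrix C C ℂ, A * A = 1 → A * χ = χ * A → ∃ U : Submodule ℂ (C → ℂ),
      (χ * A).trace.re + finrank ℂ (LinearMap.range χ.toLin') = 2 * finrank ℂ U ∧
      U ≤ LinearMap.range χ.toLin' ∧ ∀ x ∈ U, A *ᵥ x = x := by
    intro A hA cA
    have e1 : A * (χ * A + χ) = χ * A + χ := by
      rw [mul_add, ← mul_assoc, cA, mul_assoc, hA, mul_one, add_comm]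
    have e2 : χ * (χ * A + χ) = χ * A + χ := by rw [mul_add, ← mul_assoc, h]
    have e3 := trace_idem (e := (1 / 2 : ℂ) • (χ * A + χ)) (by
      rw [smul_mul_smul_comm, add_mul, mul_assoc, e1, e2]; module)
    refine ⟨LinearMap.range ((1 / 2 : ℂ) • (χ * A + χ)).toLin', ?_, ?_, ?_⟩
    · rw [Matrix.trace_smul, Matrix.trace_add, trace_idem h] at e3
      generalize finrank ℂ (LinearMap.range ((1 / 2 : ℂ) • (χ * A + χ)).toLin') = m at e3 ⊢
      have := congrArg Complex.re e3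
      simp at this
      linarith
    · rintro _ ⟨x, rfl⟩
      exact ⟨((1 / 2 : ℂ) • (χ * A + χ)) *ᵥ x, by
        rw [Matrix.toLin'_apply, Matrix.mulVec_mulVec, mul_smul_comm, e2]; rfl⟩
    · rintro _ ⟨x, rfl⟩
      rw [Matrix.toLin'_apply, Matrix.mulVec_mulVec, mul_smul_comm, e1]
  obtain ⟨U, a1, a2, a3⟩ := key A hA cA
  obtain ⟨V, b1, b2, b3⟩ := key B hB cB
  obtain ⟨e, e1, e2, e3, e4⟩ := exists_proj (U ⊓ V)
  refine ⟨e, e1, e2, ?_, e4 _ fun x hx => a3 x hx.1, e4 _ fun x hx => b3 x hx.2,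
    e4 _ fun x hx => ?_⟩
  · have c1 : ((finrank ℂ ↥(U ⊔ V) : ℝ) + finrank ℂ ↥(U ⊓ V)) = finrank ℂ U + finrank ℂ V := by
      exact_mod_cast Submodule.finrank_sup_add_finrank_inf_eq U V
    have c2 : (finrank ℂ ↥(U ⊔ V) : ℝ) ≤ finrank ℂ (LinearMap.range χ.toLin') := by
      exact_mod_cast Submodule.finrank_mono (sup_le a2 b2)
    rw [e3, Complex.natCast_re]
    linarith
  · obtain ⟨y, rfl⟩ := a2 hx.1
    simp [h]

end Vale.Agent.P174
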