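import Vale.Agent.P174.Htpy
import Mathlib.Data.Matrix.ColumnRowPartitioned

/-! The topological lemma for block matrices. -/

namespace Vale.Agent.P174

open scoped Matrix Matrix.Norms.Operator

variable {J κ R C P : Type*} [Fintype J] [DecidableEq J] [Fintype κ] [DecidableEq κ]
  [Fintype R] [DecidableEq R] [Fintype C] [DecidableEq C]

/-- Block diagonal matrices with the real trace. -/
noncomputable def mxSetup (J κ R : Type*) [Fintype J] [Fintype κ] [DecidableEq κ] [Fintype R]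
    [DecidableEq R] :
    Setup (J → Matrix κ κ ℂ) (J → Matrix R R ℂ) (J → Matrix (κ ⊕ R) (κ ⊕ R) ℂ) where
  blk :=
    { toFun := fun x j => Matrix.fromBlocks (x.1 j) 0 0 (x.2 j)
      map_one' := by funext j; simp
      map_mul' := fun x y => by funext j; simp [Matrix.fromBlocks_multiply]
      map_zero' := by funext j; simp
      map_add' := fun x y => by funext j; simp [Matrix.fromBlocks_add]
      commutes' := fun r => by
        funext j
        simp [Algebra.algebraMap_eq_smul_one, ← Matrix.fromBlocks_one, Matrix.fromBlocks_smul]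
      map_star' := fun x => by
        funext j
        simp [Matrix.star_eq_conjTranspose, Matrix.fromBlocks_conjTranspose] }
  T :=
    { toFun := fun x => ∑ j, (x j).trace.re
      map_add' := fun x y => by simp [Finset.sum_add_distrib]
      map_smul' := fun r x => by simp [Finset.mul_sum] }
  comm := fun x y => Finset.sum_congr rfl fun j _ => by
    rw [Pi.mul_apply, Matrix.trace_mul_comm]; rfl
  st := fun x => Finset.sum_congr rfl fun j _ => by
    simp [Matrix.star_eq_conjTranspose, Matrix.trace_conjTranspose]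
  pos := fun x hx => by
    open scoped ComplexOrder in
    have h : ∀ j, 0 ≤ ((x j)ᴴ * x j).trace := fun j =>
      (Matrix.posSemidef_conjTranspose_mul_self _).trace_nonneg
    obtain ⟨j, hj⟩ := Function.ne_iff.mp hx
    refine Finset.sum_pos' (fun j _ => (Complex.nonneg_iff.mp (h j)).1) ⟨j, Finset.mem_univ _, ?_⟩
    open scoped ComplexOrder in
    exact (Complex.pos_iff.mp (lt_of_le_of_ne (h j) fun h0 =>
      hj (Matrix.trace_conjTranspose_mul_self_eq_zero_iff.mp h0.symm))).1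
  inj := fun x y h => by
    have := fun j => Matrix.fromBlocks_inj.mp (congrFun h j)
    exact Prod.ext (funext fun j => (this j).1) (funext fun j => (this j).2.2.2)
  surj := fun b h => ⟨(fun j => (b j).toBlocks₁₁, fun j => (b j).toBlocks₂₂), funext fun j => by
    have h1 : b j * Matrix.fromBlocks 1 0 0 (-1) = Matrix.fromBlocks 1 0 0 (-1) * b j :=
      congrFun h j
    rw [← Matrix.fromBlocks_toBlocks (b j), Matrix.fromBlocks_multiply, Matrix.fromBlocks_multiply,
      Matrix.fromBlocks_inj] at h1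
    have h2 : (b j).toBlocks₁₂ = 0 := Setup.two_eq_zero (by simpa using h1.2.1.symm)
    have h3 : (b j).toBlocks₂₁ = 0 := Setup.two_eq_zero (by simpa using h1.2.2.1)
    change Matrix.fromBlocks _ 0 0 _ = _
    rw [← h2, ← h3, Matrix.fromBlocks_toBlocks]⟩

/-- A matrix or its adjoint, according to a sign. -/
def sgn (τ : J → Matrix κ κ ℂ) (t : J × Bool) : Matrix κ κ ℂ := cond t.2 (τ t.1) (star (τ t.1))

theorem TLc {d : ℕ} (hd : 0 < d) (s : J → Finset P) (idx : P → J × Bool) (ι : P → Matrix C κ ℂ)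
    (a1 : ∀ p, (ι p)ᴴ * ι p = 1) (a2 : ∀ p p', p ≠ p' → (ι p)ᴴ * ι p' = 0)
    (W : J → Matrix C C ℂ) (hW : ∀ j, W j ∈ unitary (Matrix C C ℂ))
    (hc : ∀ j i, ((s j).filter (idx · = (i, true))).card =
      ((s j).filter (idx · = (i, false))).card + if i = j then d else 0) :
    ∃ τ : J → Matrix κ κ ℂ, (∀ i, τ i ∈ unitary (Matrix κ κ ℂ)) ∧ ∀ j, ∃ e : Matrix C C ℂ,
      eᴴ = e ∧ e * e = e ∧ e.trace = Fintype.card κ ∧
      W j * (1 + ∑ p ∈ s j, ι p * (sgn τ (idx p) - 1) * (ι p)ᴴ) * e = e := by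
  let ι0 : Matrix (κ ⊕ κ ⊕ C) κ ℂ := Matrix.fromRows 1 0
  let ι1 : Matrix (κ ⊕ κ ⊕ C) κ ℂ := Matrix.fromRows 0 (Matrix.fromRows 1 0)
  let ρ : Matrix (κ ⊕ κ ⊕ C) C ℂ := Matrix.fromRows 0 (Matrix.fromRows 0 1)
  have h0 : ι0ᴴ * ι0 = 1 := by
    simp [ι0, Matrix.conjTranspose_fromRows_eq_fromCols_conjTranspose, Matrix.fromCols_mul_fromRows]
  have h1 : ι1ᴴ * ι1 = 1 := by
    simp [ι1, Matrix.conjTranspose_fromRows_eq_fromCols_conjTranspose, Matrix.fromCols_mul_fromRows]
  have h2 : ρᴴ * ρ = 1 := by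
    simp [ρ, Matrix.conjTranspose_fromRows_eq_fromCols_conjTranspose, Matrix.fromCols_mul_fromRows]
  have h01 : ι0ᴴ * ι1 = 0 := by
    simp [ι0, ι1, Matrix.conjTranspose_fromRows_eq_fromCols_conjTranspose,
      Matrix.fromCols_mul_fromRows]
  have h02 : ι0ᴴ * ρ = 0 := by
    simp [ι0, ρ, Matrix.conjTranspose_fromRows_eq_fromCols_conjTranspose,
      Matrix.fromCols_mul_fromRows]
  have hm : ∀ y : Matrix κ κ ℂ,
      hat ι0 y * Matrix.fromBlocks 1 0 0 (-1) = Matrix.fromBlocks y 0 0 (-1) := fun y => by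
    rw [hat, Matrix.conjTranspose_fromRows_eq_fromCols_conjTranspose, Matrix.fromRows_mul,
      Matrix.fromRows_mul_fromCols, ← Matrix.fromBlocks_one, Matrix.fromBlocks_add,
      Matrix.fromBlocks_multiply]
    simp
  have hx : ∀ t, Good fun τ : J → Matrix κ κ ℂ => sgn τ t := by
    rintro ⟨i, _ | _⟩
    · exact ⟨contDiff_star.comp (contDiff_apply _ _ i), fun τ hτ =>
        Unitary.star_mem ⟨congrFun hτ.1 i, congrFun hτ.2 i⟩⟩
    · exact ⟨contDiff_apply _ _ i, fun τ hτ => ⟨congrFun hτ.1 i, congrFun hτ.2 i⟩⟩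
  have key := fun j => htp_sum h0 h1 h01 _ hx (fun i τ hτ => congrFun hτ.2 i) (s j) idx
    (fun p => ρ * ι p)
    (fun p => by
      rw [Matrix.conjTranspose_mul, Matrix.mul_assoc, ← Matrix.mul_assoc ρᴴ, h2, Matrix.one_mul, a1])
    (fun p p' h => by
      rw [Matrix.conjTranspose_mul, Matrix.mul_assoc, ← Matrix.mul_assoc ρᴴ, h2, Matrix.one_mul,
        a2 _ _ h])
    (fun p => by rw [← Matrix.mul_assoc, h02, Matrix.zero_mul]) j d (hc j)
  have e1 : ∀ j τ, 1 + ∑ p ∈ s j, ρ * ι p * (sgn τ (idx p) - 1) * (ρ * ι p)ᴴ =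
      hat ρ (1 + ∑ p ∈ s j, ι p * (sgn τ (idx p) - 1) * (ι p)ᴴ) := fun j τ => by
    simp [hat, Matrix.mul_sum, Matrix.sum_mul, Matrix.mul_assoc]
  simp only [e1] at key
  have hW' : ∀ j, -hat ρ (-W j) ∈ unitary _ := fun j => by
    have := hat_unitary h2 (y := -W j) (by simpa [Unitary.mem_iff] using hW j)
    simpa [Unitary.mem_iff] using this
  have hς : Matrix.fromBlocks (1 : Matrix κ κ ℂ) 0 0 (-1 : Matrix (κ ⊕ C) (κ ⊕ C) ℂ) ∈
      unitary _ := by
    simp [Unitary.mem_iff, Matrix.star_eq_conjTranspose, Matrix.fromBlocks_conjTranspose,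
      Matrix.fromBlocks_multiply]
  have g1 := fun j => ((good_const (hW' j)).mul (key j).1).mul (good_const (one_mem _))
  have g2 : ∀ j, Good fun τ : J → Matrix κ κ ℂ => hat ι0 (τ j ^ d) := fun j =>
    good_hat h0 ⟨(hx (j, true)).1.pow d, fun τ hτ => pow_mem ((hx (j, true)).2 τ hτ) d⟩
  obtain ⟨τ, hτ, q, hq, h⟩ := (mxSetup J κ (κ ⊕ C)).TL (conn_pi conn_matrix) (conn_pi conn_matrix)
    hd (continuous_pi fun j => (g1 j).1.continuous) (fun τ hτ => pi_unitary fun j => (g1 j).2 τ hτ)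
    (htp_pi g1 (fun j => by
        have := ((good_const (one_mem _)).mul (g2 j)).mul (good_const hς)
        simp only [one_mul, hm] at this
        exact this)
      fun j => (htp_const conn_matrix (hW' j) (one_mem _) (key j).1).trans ((key j).2.trans (by
        have := (htp_const conn_matrix (one_mem _) hς (g2 j)).symm
        simp only [one_mul, hm] at this
        exact this)))
  refine ⟨τ, fun i => ⟨congrFun hτ.1 i, congrFun hτ.2 i⟩, fun j => ?_⟩
  have q2 : q j * (q j)ᴴ = 1 := congrFun hq.2 j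
  set B := 1 + ∑ p ∈ s j, ι p * (sgn τ (idx p) - 1) * (ι p)ᴴ
  set f := (q j)ᴴ * Matrix.fromBlocks 1 0 0 0 * q j with hf
  have h3 : -hat ρ (-W j) * hat ρ B * 1 * f = f := congrFun h j
  rw [mul_one, neg_mul, ← hat_mul h2, hat, neg_mul, add_mul, one_mul] at h3
  have h4 : ρ * (W j * B + 1) * ρᴴ * f = f + f := by
    rw [← sub_eq_zero] at h3 ⊢
    rw [← h3, neg_mul (W j), ← neg_add' (W j * B), Matrix.mul_neg, Matrix.neg_mul, Matrix.neg_mul]
    abel
  have h5 : ρ * ρᴴ * f = f := by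
    have : ρ * ρᴴ * (f + f) = f + f := by
      rw [← h4]
      simp only [Matrix.mul_assoc]
      rw [← Matrix.mul_assoc ρᴴ ρ, h2, Matrix.one_mul]
    rw [mul_add] at this
    exact sub_eq_zero.mp (Setup.two_eq_zero (by rw [← sub_eq_zero, ← sub_eq_zero.mpr this]; abel))
  have h6 : f * f = f := by
    simp only [hf, Matrix.mul_assoc]
    rw [← Matrix.mul_assoc (q j) (q j)ᴴ, q2, Matrix.one_mul, ← Matrix.mul_assoc _ _ (q j)]
    simp [Matrix.fromBlocks_multiply]
  refine ⟨ρᴴ * f * ρ, ?_, ?_, ?_, ?_⟩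
  · simp [hf, Matrix.mul_assoc, Matrix.fromBlocks_conjTranspose]
  · conv_rhs => rw [← h6]; congr; congr; rfl; congr; rfl; rw [← h5]
    simp only [Matrix.mul_assoc]
  · rw [Matrix.trace_mul_comm, ← Matrix.mul_assoc, h5, hf, Matrix.trace_mul_comm,
      ← Matrix.mul_assoc, q2]
    simp [Matrix.trace]
  · have := congrArg (fun t => ρᴴ * t * ρ) h4
    simp only [← Matrix.mul_assoc, h2, Matrix.one_mul, Matrix.add_mul, Matrix.mul_add,
      Matrix.mul_one] at this ⊢
    exact add_right_cancel this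

end Vale.Agent.P174
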