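import Vale.Agent.P174.Frame
import Mathlib.Analysis.SpecialFunctions.SmoothTransition
import Mathlib.Analysis.Calculus.LocalExtr.Basic
import Mathlib.Analysis.Calculus.Deriv.Prod

/-! Homotopy invariance of the intersection integral. -/

namespace Vale.Agent.P174

open Function MeasureTheory

set_option linter.unusedSectionVars false

section Htp

variable {D B : Type*} [NormedRing D] [NormedAlgebra ℝ D] [StarRing D]
  [NormedRing B] [NormedAlgebra ℝ B] [StarRing B]

/-- One smooth homotopy through maps sending unitaries to unitaries. -/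
def Hty (Φ Φ' : D → B) : Prop :=
  ∃ H : ℝ × D → B, ContDiff ℝ 2 H ∧ (∀ s, ∀ τ ∈ unitary D, H (s, τ) ∈ unitary B) ∧
    (fun τ => H (0, τ)) = Φ ∧ (fun τ => H (1, τ)) = Φ'

/-- The equivalence relation generated by homotopies. -/
def Htp : (D → B) → (D → B) → Prop := Relation.EqvGen Hty

end Htp

lemma exists_curve {A : Type*} [NormedRing A] [NormedAlgebra ℝ A] [StarRing A] [ContinuousStar A]
    [StarModule ℝ A] [CompleteSpace A] {ξ : A} (hξ : star ξ = -ξ) :
    ∃ γ : ℝ → A, HasDerivAt γ ξ 0 ∧ γ 0 = 1 ∧ ∀ t, γ t ∈ unitary A := by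
  let : NormedAlgebra ℚ A := NormedAlgebra.restrictScalars ℚ ℝ A
  refine ⟨fun t => NormedSpace.exp (t • ξ), ?_, by simp, fun t =>
    NormedSpace.exp_mem_unitary_of_mem_skewAdjoint (by
      rw [skewAdjoint.mem_iff, star_smul, hξ]; simp)⟩
  simpa using hasDerivAt_exp_smul_const' (𝕂 := ℝ) ξ (0 : ℝ)

lemma tangent {P B : Type*} [NormedAddCommGroup P] [NormedSpace ℝ P] [NormedRing B]
    [NormedAlgebra ℝ B] [StarRing B] [ContinuousStar B] [StarModule ℝ B] {Ψ : P → B}
    (hΨ : Differentiable ℝ Ψ) {γ : ℝ → P} {v p : P} (hγ : HasDerivAt γ v 0) (h0 : γ 0 = p)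
    (hu : ∀ t, Ψ (γ t) ∈ unitary B) :
    star (fderiv ℝ Ψ p v) * Ψ p + star (Ψ p) * fderiv ℝ Ψ p v = 0 := by
  subst h0
  have h1 : HasDerivAt (fun t => Ψ (γ t)) (fderiv ℝ Ψ (γ 0) v) 0 :=
    (hΨ _).hasFDerivAt.comp_hasDerivAt 0 hγ
  have h1' : HasDerivAt (fun t => star (Ψ (γ t))) (star (fderiv ℝ Ψ (γ 0) v)) 0 :=
    (starL' ℝ : B ≃L[ℝ] B).hasFDerivAt.comp_hasDerivAt 0 h1
  have h2 := h1'.mul h1
  have h3 : (fun t => star (Ψ (γ t))) * (fun t => Ψ (γ t)) = fun _ => 1 :=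
    funext fun t => (hu t).1
  rw [h3] at h2
  exact h2.unique (hasDerivAt_const _ _)

lemma small {K : Type*} [TopologicalSpace K] [CompactSpace K] {h : K → ℝ} (hc : Continuous h)
    {U : Set K} (hU : IsOpen U) (hz : ∀ x, x ∉ U → 0 < h x) :
    ∃ c, 0 < c ∧ ∀ x, h x < c → x ∈ U := by
  obtain ⟨c, hc0, hc1⟩ := hU.isClosed_compl.isCompact.exists_forall_le' hc.continuousOn hz
  exact ⟨c, hc0, fun x hx => by_contra fun hn => not_lt.mpr (hc1 x hn) hx⟩

variable {D1 D2 B : Type*} [NormedRing D1] [NormedAlgebra ℝ D1] [StarRing D1] [StarModule ℝ D1]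
  [NormedRing D2] [NormedAlgebra ℝ D2] [StarRing D2] [StarModule ℝ D2]
  [NormedRing B] [NormedAlgebra ℝ B] [StarRing B] [StarModule ℝ B]
  [FiniteDimensional ℝ D1] [FiniteDimensional ℝ D2] [FiniteDimensional ℝ B]
  [ContinuousStar D1] [ContinuousStar D2] [ContinuousStar B]

namespace Setup

variable (S : Setup D1 D2 B)

/-- The block embedding as a continuous linear map. -/
noncomputable def blkL : (D1 × D2) →L[ℝ] B :=
  LinearMap.toContinuousLinearMap S.blk.toAlgHom.toLinearMap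

/-- Unitaries with a prescribed fixed space. -/
def E (x : (D1 × D2) × B) : B := star x.2 * S.blk (1, x.1.2) * x.2

/-- The test map. -/
def Psi (Φ : D1 → B) (x : (D1 × D2) × B) : B := Φ x.1.1 * S.E x

/-- Horizontal derivative of the test map. -/
noncomputable def L (Φ : D1 → B) (x : (D1 × D2) × B) : S.W →ₗ[ℝ] S.W :=
  S.sk ∘ₗ (fderiv ℝ (S.Psi Φ) x : ((D1 × D2) × B) →ₗ[ℝ] B) ∘ₗ LinearMap.mulRight ℝ x ∘ₗ S.emb

/-- A bump at the identity. -/
noncomputable def bump (c : ℝ) (Y : B) : ℝ := expNegInvGlue (c - (S.T 1 - S.T Y))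

omit [StarModule ℝ D1] [StarModule ℝ D2] [ContinuousStar D1] [ContinuousStar D2] in
lemma contDiff_E : ContDiff ℝ 2 S.E :=
  ((contDiff_star.comp contDiff_snd).mul
    (S.blkL.contDiff.comp (contDiff_const.prodMk contDiff_fst.snd))).mul contDiff_snd

omit [StarModule ℝ D1] [StarModule ℝ D2] [ContinuousStar D1] [ContinuousStar D2] in
lemma fderiv_E (x v : (D1 × D2) × B) : fderiv ℝ S.E x v = star v.2 * S.blk (1, x.1.2) * x.2 +
    star x.2 * S.blk (0, v.1.2) * x.2 + star x.2 * S.blk (1, x.1.2) * v.2 := by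
  have h1 : HasFDerivAt (fun x : (D1 × D2) × B => x.2) (ContinuousLinearMap.snd ℝ _ _) x :=
    hasFDerivAt_snd
  have h2 : HasFDerivAt (fun x : (D1 × D2) × B => x.1.2)
      ((ContinuousLinearMap.snd ℝ _ _).comp (ContinuousLinearMap.fst ℝ _ _)) x :=
    hasFDerivAt_fst.snd
  have h3 := S.blkL.hasFDerivAt.comp x ((hasFDerivAt_const (1 : D1) x).prodMk h2)
  have h4 : HasFDerivAt S.E _ x := (h1.star.mul' h3).mul' h1
  rw [h4.fderiv]
  simp [blkL]
  abel

omit [StarModule ℝ D1] [StarModule ℝ D2] [ContinuousStar D1] [ContinuousStar D2] in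
lemma fderiv_Psi {Φ : D1 → B} (hΦ : Differentiable ℝ Φ) (x v : (D1 × D2) × B) :
    fderiv ℝ (S.Psi Φ) x v = fderiv ℝ Φ x.1.1 v.1.1 * S.E x + Φ x.1.1 * fderiv ℝ S.E x v := by
  have h2 : HasFDerivAt (fun x : (D1 × D2) × B => x.1.1)
      ((ContinuousLinearMap.fst ℝ _ _).comp (ContinuousLinearMap.fst ℝ _ _)) x :=
    hasFDerivAt_fst.fst
  have h4 : HasFDerivAt (S.Psi Φ) _ x := ((hΦ _).hasFDerivAt.comp x h2).mul'
    (S.contDiff_E.differentiable two_ne_zero x).hasFDerivAt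
  rw [h4.fderiv]
  simp [add_comm]

omit [StarModule ℝ D1] [StarModule ℝ D2] [StarModule ℝ B] [FiniteDimensional ℝ D1]
  [FiniteDimensional ℝ D2] [FiniteDimensional ℝ B] [ContinuousStar D1] [ContinuousStar D2]
  [ContinuousStar B] in
lemma blk_unitary {τ : D1} {y : D2} (h1 : τ ∈ unitary D1) (h2 : y ∈ unitary D2) :
    S.blk (τ, y) ∈ unitary B := by
  refine ⟨?_, ?_⟩ <;> rw [← map_star, ← map_mul, ← map_one S.blk] <;> congr 1
  · exact Prod.ext h1.1 h2.1
  · exact Prod.ext h1.2 h2.2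

lemma u11 {A B C : Type*} [Monoid A] [StarMul A] [Monoid B] [StarMul B] [Monoid C] [StarMul C]
    (x : unitary ((A × B) × C)) : x.1.1.1 ∈ unitary A :=
  ⟨congrArg (·.1.1) x.2.1, congrArg (·.1.1) x.2.2⟩

lemma u12 {A B C : Type*} [Monoid A] [StarMul A] [Monoid B] [StarMul B] [Monoid C] [StarMul C]
    (x : unitary ((A × B) × C)) : x.1.1.2 ∈ unitary B :=
  ⟨congrArg (·.1.2) x.2.1, congrArg (·.1.2) x.2.2⟩

lemma u2 {A B C : Type*} [Monoid A] [StarMul A] [Monoid B] [StarMul B] [Monoid C] [StarMul C]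
    (x : unitary ((A × B) × C)) : x.1.2 ∈ unitary C :=
  ⟨congrArg (·.2) x.2.1, congrArg (·.2) x.2.2⟩

omit [StarModule ℝ D1] [StarModule ℝ D2] [StarModule ℝ B] [FiniteDimensional ℝ D1]
  [FiniteDimensional ℝ D2] [FiniteDimensional ℝ B] [ContinuousStar D1] [ContinuousStar D2]
  [ContinuousStar B] in
lemma E_unitary (x : unitary ((D1 × D2) × B)) : S.E x ∈ unitary B :=
  mul_mem (mul_mem (Unitary.star_mem (u2 x)) (S.blk_unitary (one_mem _) (u12 x))) (u2 x)

omit [StarModule ℝ D1] [StarModule ℝ D2] [StarModule ℝ B] [FiniteDimensional ℝ D1]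
  [FiniteDimensional ℝ D2] [FiniteDimensional ℝ B] [ContinuousStar D1] [ContinuousStar D2]
  [ContinuousStar B] in
lemma gap_pos {Y : B} (hY : Y ∈ unitary B) (h : Y ≠ 1) : 0 < S.T 1 - S.T Y := by
  have := S.pos (Y - 1) (sub_ne_zero.mpr h)
  rw [star_sub, star_one, sub_mul, mul_sub, hY.1, one_mul, mul_one, map_sub, map_sub, map_sub,
    S.st] at this
  linarith

omit [ContinuousStar D1] [ContinuousStar D2] in
lemma vertical {Φ : D1 → B} (hΦ : Differentiable ℝ Φ) (x : unitary ((D1 × D2) × B))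
    {η : D1 × D2} (hη : star η = -η) :
    fderiv ℝ (S.Psi Φ) x
      ((((0, η.2 - x.1.1.2 * η.2 * star x.1.1.2), S.blk η) : (D1 × D2) × B) * x) = 0 := by
  rw [S.fderiv_Psi hΦ, fderiv_E]
  have e : S.blk (0, (η.2 - x.1.1.2 * η.2 * star x.1.1.2) * x.1.1.2) =
      S.blk η * S.blk (1, x.1.1.2) - S.blk (1, x.1.1.2) * S.blk η := by
    rw [← map_mul, ← map_mul, ← map_sub]
    congr 1
    ext
    · simp
    · simp [sub_mul, mul_assoc, (u12 x).1]
  simp only [Prod.fst_mul, Prod.snd_mul, zero_mul, map_zero, zero_add, e, star_mul, ← map_star,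
    hη, map_neg]
  noncomm_ring

omit [ContinuousStar D1] [ContinuousStar D2] in
lemma det_L {ι : Type*} [Fintype ι] [DecidableEq ι] (b : Module.Basis ι ℝ S.W) (Φ : D1 → B)
    (x : (D1 × D2) × B) : LinearMap.det (S.L Φ x) =
      detM ι fun a => b.equivFun (S.sk (fderiv ℝ (S.Psi Φ) x (S.emb (b a) * x))) := by
  rw [← LinearMap.det_toMatrix b, ← Matrix.det_transpose, detM_det]
  congr 1
  ext i j
  simp [LinearMap.toMatrix_apply, L]

variable [MeasurableSpace (unitary ((D1 × D2) × B))] [BorelSpace (unitary ((D1 × D2) × B))]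
  [CompactSpace (unitary ((D1 × D2) × B))]
  (μ : Measure (unitary ((D1 × D2) × B))) [IsFiniteMeasure μ] [μ.IsMulLeftInvariant]

/-- The intersection integral. -/
noncomputable def I (c : ℝ) (Φ : D1 → B) : ℝ :=
  ∫ x : unitary ((D1 × D2) × B), S.bump c (S.Psi Φ x) * LinearMap.det (S.L Φ x) ∂μ

theorem I_eq_of_hty {c : ℝ}
    (hc : ∀ Y ∈ unitary B, S.T 1 - S.T Y < c → ‖Y - 1‖ + ‖star Y - 1‖ < 2)
    {Φ Φ' : D1 → B} (h : Hty Φ Φ') : S.I μ c Φ = S.I μ c Φ' := by
  obtain ⟨H, hH, hu, rfl, rfl⟩ := h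
  obtain ⟨n1, n2, b, hb⟩ := S.exists_frame
  have : CompleteSpace ((D1 × D2) × B) := FiniteDimensional.complete ℝ _
  let co : B →L[ℝ] (Fin n1 ⊕ Fin n2 → ℝ) :=
    LinearMap.toContinuousLinearMap ((b.equivFun : S.W →ₗ[ℝ] _) ∘ₗ S.sk)
  have hco : ∀ Y, co Y = b.equivFun (S.sk Y) := fun _ => rfl
  let TL : B →L[ℝ] ℝ := LinearMap.toContinuousLinearMap S.T
  let Ψ : ℝ × ((D1 × D2) × B) → B := fun p => H (p.1, p.2.1.1) * S.E p.2
  have hΨ : ContDiff ℝ 2 Ψ := (hH.comp (contDiff_fst.prodMk contDiff_snd.fst.fst)).mul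
    (S.contDiff_E.comp contDiff_snd)
  have hΨd : Differentiable ℝ Ψ := hΨ.differentiable two_ne_zero
  have hΨu : ∀ s (x : unitary ((D1 × D2) × B)), Ψ (s, x) ∈ unitary B := fun s x =>
    mul_mem (hu s _ (u11 x)) (S.E_unitary x)
  have hs : ∀ s, Differentiable ℝ fun τ => H (s, τ) := fun s =>
    (hH.differentiable two_ne_zero).comp ((differentiable_const _).prodMk differentiable_id)
  have hP : ∀ s x v, fderiv ℝ Ψ (s, x) (0, v) = fderiv ℝ (S.Psi fun τ => H (s, τ)) x v := by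
    intro s x v
    have h1 : HasFDerivAt (S.Psi fun τ => H (s, τ)) _ x :=
      (hΨd (s, x)).hasFDerivAt.comp x (hasFDerivAt_prodMk_right s x)
    rw [h1.fderiv]
    rfl
  have hf : ∀ p v, fderiv ℝ (co ∘ Ψ) p v = co (fderiv ℝ Ψ p v) := fun p v => by
    rw [(co.hasFDerivAt.comp p (hΨd p).hasFDerivAt).fderiv]; rfl
  let β : B → ℝ := fun Y => expNegInvGlue (c - (S.T 1 - TL Y))
  have hβ : ContDiff ℝ 1 β := expNegInvGlue.contDiff.comp
    (contDiff_const.sub (contDiff_const.sub TL.contDiff))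
  have key := deg μ (fun a => S.emb (b a)) (fun a => S.emb_skew _) (f := co ∘ Ψ) (g := β ∘ Ψ)
    (co.contDiff.comp hΨ) (hβ.comp (hΨ.of_le one_le_two)) ?_ ?_ 0 1
  · simp only [jac, hf, hP] at key
    simp only [I, S.det_L b]
    exact key
  · intro s x
    set Y := Ψ (s, x) with hY
    have hg : ∀ v, fderiv ℝ (β ∘ Ψ) (s, x) v = fderiv ℝ β Y (fderiv ℝ Ψ (s, x) v) := fun v => by
      rw [((hβ.differentiable one_ne_zero _).hasFDerivAt.comp _ (hΨd _).hasFDerivAt).fderiv]; rfl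
    simp only [hg, hf]
    by_cases hlt : S.T 1 - S.T Y < c
    swap
    · have : IsLocalMin β Y := Filter.Eventually.of_forall fun Z => by
        have : β Y = 0 := expNegInvGlue.zero_of_nonpos (sub_nonpos.mpr (not_lt.mp hlt))
        rw [this]
        exact expNegInvGlue.nonneg _
      exact ⟨0, by simp [this.fderiv_eq_zero], fun a => by simp [this.fderiv_eq_zero]⟩
    have hn := hc Y (hΨu s x) hlt
    let V : Submodule ℝ B :=
      { carrier := {Z | star Z * Y + star Y * Z = 0}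
        add_mem' := fun {Z Z'} h h' => by
          simp only [Set.mem_ofPred_eq] at h h' ⊢
          rw [star_add, add_mul, mul_add, add_add_add_comm, h, h', add_zero]
        zero_mem' := by simp
        smul_mem' := fun r Z h => by
          simp only [Set.mem_ofPred_eq] at h ⊢
          rw [star_smul, star_trivial, smul_mul_assoc, mul_smul_comm, ← smul_add, h, smul_zero] }
    obtain ⟨l, hl⟩ := (co.toLinearMap ∘ₗ V.subtype).exists_leftInverse_of_injective
      (LinearMap.ker_eq_bot'.mpr fun Z hZ => by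
        have h1 : star (Z : B) = Z := S.sk_eq_zero (b.equivFun.map_eq_zero_iff.mp hZ)
        have h2 : star (Z : B) * Y + star Y * Z = 0 := Z.2
        rw [h1] at h2
        have h3 : (2 : ℝ) • (Z : B) = -(Z * (Y - 1) + (star Y - 1) * Z) := by
          rw [two_smul, ← sub_eq_zero, ← h2]; noncomm_ring
        have h4 := congrArg norm h3
        rw [norm_smul, norm_neg, Real.norm_ofNat] at h4
        have h5 := norm_add_le ((Z : B) * (Y - 1)) ((star Y - 1) * Z)
        have h6 := norm_mul_le (Z : B) (Y - 1)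
        have h7 := norm_mul_le (star Y - 1) (Z : B)
        have h8 := norm_nonneg (Z : B)
        exact Subtype.ext (norm_eq_zero.mp (by nlinarith)))
    have hV : ∀ Z ∈ V, fderiv ℝ β Y Z =
        ((fderiv ℝ β Y : B →ₗ[ℝ] ℝ) ∘ₗ V.subtype ∘ₗ l) (co Z) := fun Z hZ => by
      have : l (co Z) = ⟨Z, hZ⟩ := LinearMap.congr_fun hl ⟨Z, hZ⟩
      simp [this]
    refine ⟨_, hV _ ?_, fun a => hV _ ?_⟩
    · refine tangent hΨd (γ := fun t => (t + s, x)) ?_ (by simp) fun t => hΨu _ _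
      exact ((hasDerivAt_id' (0 : ℝ)).add_const s).prodMk (hasDerivAt_const _ _)
    · obtain ⟨γ, h1, h2, h3⟩ := exists_curve (S.emb_skew (b a))
      refine tangent hΨd (γ := fun t => (s, γ t * x)) ?_ (by simp [h2])
        fun t => hΨu s ⟨_, mul_mem (h3 t) x.2⟩
      exact HasDerivAt.prodMk (hasDerivAt_const (0 : ℝ) s) (by simpa using h1.mul_const x.1)
  · intro s x a a' haa
    obtain ⟨w, η, hη, h1, h2, h3⟩ := hb a a' haa x.1.1.2
    refine ⟨b.repr w, h1, h2, ?_⟩
    simp only [hf, hP, h3, add_mul, map_add, S.vertical (hs s) x hη, add_zero]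
    conv_lhs => rw [← b.sum_repr w]
    simp only [map_sum, map_smul, Finset.sum_mul, smul_mul_assoc]

end Setup

end Vale.Agent.P174
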