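import Mathlib.Analysis.Calculus.Deriv.MeanValue
import Mathlib.Analysis.SpecialFunctions.ExpDeriv
import Mathlib.Analysis.SpecialFunctions.Trigonometric.Basic
import Mathlib.Analysis.Complex.RealDeriv
import Mathlib.Algebra.Star.Unitary
import Mathlib.Algebra.Ring.GeomSum

/-! A monotonicity inequality for the total argument of unitaries in a tracial algebra. -/

namespace Vale.Agent.P174

open Finset Complex

/-- A positive trace on a complex star algebra. -/
structure Tr (A : Type*) [Ring A] [Algebra ℂ A] [StarRing A] where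
  τ : A →ₗ[ℂ] ℂ
  comm : ∀ x y, τ (x * y) = τ (y * x)
  st : ∀ x, τ (star x) = star (τ x)
  pos : ∀ x, 0 ≤ (τ (star x * x)).re

variable {A : Type*} [Ring A] [Algebra ℂ A] [StarRing A] [StarModule ℂ A]

/-- Rotation of the range of a projection. -/
noncomputable def rot (p : A) (t : ℝ) : A := 1 + (exp (t * I) - 1) • p

lemma star_exp (t : ℝ) : star (exp (t * I)) * exp (t * I) = 1 := by
  rw [RCLike.star_def, ← exp_conj, ← exp_add]; simp

lemma rot_unitary {p : A} (h1 : star p = p) (h2 : p * p = p) (t : ℝ) : rot p t ∈ unitary A := by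
  have := star_exp t
  constructor <;>
  · simp only [rot, star_add, star_one, star_smul, h1, add_mul, mul_add, one_mul, mul_one,
      smul_mul_smul_comm, h2, add_assoc, ← add_smul, star_sub]
    rw [add_eq_left]
    convert zero_smul ℂ p using 2
    linear_combination this

namespace Tr

variable (T : Tr A)

/-- Fejer regularisation of the total argument. -/
noncomputable def F (K : ℕ) (y : A) : ℝ :=
  -∑ N ∈ range K, ∑ k ∈ range N, (T.τ (y ^ (k + 1))).im / (k + 1)

omit [StarModule ℂ A] in
lemma F_comm (K : ℕ) (a b : A) : T.F K (a * b) = T.F K (b * a) := by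
  have : ∀ k, T.τ ((a * b) ^ (k + 1)) = T.τ ((b * a) ^ (k + 1)) := fun k => by
    rw [pow_succ, ← mul_assoc, T.comm, ← mul_assoc, ← mul_pow_mul, mul_assoc, ← pow_succ]
  simp only [F, this]

omit [StarModule ℂ A] in
lemma F_star (K : ℕ) (y : A) : T.F K (star y) = -T.F K y := by
  simp [F, ← star_pow, T.st, neg_div]

omit [StarModule ℂ A] in
lemma F_real (K : ℕ) {y : A} (h : ∀ k, (T.τ (y ^ k)).im = 0) : T.F K y = 0 := by simp [F, h]

omit [StarModule ℂ A] in
lemma deriv_pow {p : A} (h2 : p * p = p) (y : A) (t : ℝ) (k : ℕ) : ∃ D : A,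
    (∀ b, HasDerivAt (fun t => T.τ (b * (rot p t * y) ^ k)) (T.τ (b * D)) t) ∧
    ∀ j, T.τ ((rot p t * y) ^ j * D) = k * I * T.τ (p * (rot p t * y) ^ (k + j)) := by
  induction k with
  | zero => exact ⟨0, fun b => by simpa using hasDerivAt_const t (T.τ b), by simp⟩
  | succ k ih =>
    obtain ⟨D, a1, a2⟩ := ih
    set z := rot p t * y with hz
    refine ⟨I • (p * z ^ (k + 1)) + z * D, fun b => ?_, fun j => ?_⟩
    · have hl : HasDerivAt (fun t : ℝ => exp (t * I) - 1) (exp (t * I) * I) t := by
        simpa using (((hasDerivAt_id (t : ℂ)).mul_const I).cexp.comp_ofReal).sub_const 1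
      have e : p * z = exp (t * I) • (p * y) := by
        rw [hz, rot, ← mul_assoc, mul_add, mul_smul_comm, h2, mul_one, sub_smul, one_smul,
          add_sub_cancel, smul_mul_assoc]
      refine (((a1 (b * y)).add (hl.mul (a1 (b * p * y)))).congr_of_eventuallyEq
        (Filter.Eventually.of_forall fun t => ?_)).congr_deriv (Eq.symm ?_)
      · simp only [Pi.add_apply, Pi.mul_apply, pow_succ']
        generalize (rot p t * y) ^ k = w
        simp [rot, add_mul, mul_add, mul_assoc]
      · rw [pow_succ', ← mul_assoc p, e]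
        rw [← hz]
        generalize z ^ k = w
        rw [hz, rot]
        simp only [add_mul, mul_add, mul_assoc, map_add, smul_mul_assoc, mul_smul_comm, map_smul,
          smul_eq_mul, one_mul]
        ring
    · rw [mul_add, map_add, ← mul_assoc, ← pow_succ, a2, mul_smul_comm, map_smul, T.comm, mul_assoc,
        ← pow_add, add_right_comm k, add_assoc k]
      simp only [smul_eq_mul, Nat.cast_succ]
      ring

omit [StarModule ℂ A] in
lemma fejer {p z : A} (h1 : star p = p) (h2 : p * p = p) (hz : z ∈ unitary A) (K : ℕ) :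
    (T.τ (star ((∑ k ∈ range K, z ^ k) * p) * ((∑ k ∈ range K, z ^ k) * p))).re =
      K * (T.τ p).re + 2 * ∑ N ∈ range K, ∑ k ∈ range N, (T.τ (p * z ^ (k + 1))).re := by
  have e0 : ∀ K, star (z ^ K) * z ^ K = 1 := fun K => (pow_mem hz K).1
  have e1 : ∀ K, star (∑ k ∈ range K, z ^ k) * z ^ K = ∑ k ∈ range K, z ^ (k + 1) := by
    intro K
    induction K with
    | zero => simp
    | succ K ih =>
      rw [sum_range_succ, star_add, add_mul, pow_succ, ← mul_assoc, ← mul_assoc, ih, e0,
        sum_range_succ', sum_mul]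
      simp [pow_succ]
  induction K with
  | zero => simp
  | succ K ih =>
    set S := ∑ k ∈ range K, z ^ k with hS
    have e2 : T.τ (star (S * p) * (z ^ K * p)) = ∑ k ∈ range K, T.τ (p * z ^ (k + 1)) := by
      rw [star_mul, h1, ← mul_assoc, T.comm, ← mul_assoc, ← mul_assoc, h2, mul_assoc, e1, mul_sum,
        map_sum]
    have e3 : T.τ (star (z ^ K * p) * (S * p)) = star (T.τ (star (S * p) * (z ^ K * p))) := by
      rw [← T.st, star_mul (star _), star_star]
    have e4 : star (z ^ K * p) * (z ^ K * p) = p := by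
      rw [star_mul, mul_assoc, ← mul_assoc (star (z ^ K)), e0, one_mul, h1, h2]
    rw [sum_range_succ, ← hS, add_mul, star_add, add_mul, mul_add, mul_add, e4, map_add, map_add,
      map_add, e3, e2, add_re, add_re, add_re, ih, sum_range_succ]
    simp only [RCLike.star_def, conj_re, re_sum, Nat.cast_succ]
    ring

lemma deriv_F {p y : A} (h1 : star p = p) (h2 : p * p = p) (hy : y ∈ unitary A) (K : ℕ) (t : ℝ) :
    HasDerivAt (fun t => T.F K (rot p t * y)) ((K * (T.τ p).re -
      (T.τ (star ((∑ k ∈ range K, (rot p t * y) ^ k) * p) *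
        ((∑ k ∈ range K, (rot p t * y) ^ k) * p))).re) / 2) t := by
  rw [T.fejer h1 h2 (mul_mem (rot_unitary h1 h2 t) hy)]
  have : ∀ k : ℕ, HasDerivAt (fun t => (T.τ ((rot p t * y) ^ (k + 1))).im / (k + 1))
      (T.τ (p * (rot p t * y) ^ (k + 1))).re t := fun k => by
    obtain ⟨D, a1, a2⟩ := T.deriv_pow h2 y t (k + 1)
    have b1 := a1 1
    have b2 := a2 0
    simp only [one_mul, pow_zero, add_zero] at b1 b2
    rw [b2] at b1
    refine ((imCLM.hasFDerivAt.comp_hasDerivAt t b1).div_const ((k : ℝ) + 1)).congr_deriv ?_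
    have : (k : ℝ) + 1 ≠ 0 := by positivity
    field_simp
    simp
  refine (HasDerivAt.fun_sum fun N (_ : N ∈ range K) =>
    HasDerivAt.fun_sum fun k (_ : k ∈ range N) => this k).neg.congr_deriv ?_
  ring

lemma ML {p y : A} (h1 : star p = p) (h2 : p * p = p) (hy : y ∈ unitary A) (K : ℕ) {θ : ℝ}
    (hθ : 0 ≤ θ) : T.F K (rot p θ * y) ≤ T.F K y + K * (T.τ p).re / 2 * θ := by
  have := image_sub_le_mul_sub_of_deriv_le (C := K * (T.τ p).re / 2)
    (fun t => (T.deriv_F h1 h2 hy K t).differentiableAt) (fun t => by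
      rw [(T.deriv_F h1 h2 hy K t).deriv]
      linarith [T.pos ((∑ k ∈ range K, (rot p t * y) ^ k) * p)]) hθ
  simp only [rot, ofReal_zero, zero_mul, exp_zero, sub_self, zero_smul, add_zero, one_mul,
    sub_zero] at this ⊢
  linarith

lemma ML' {v y : A} (h1 : star v = v) (h2 : v * v = 1) (hy : y ∈ unitary A) (K : ℕ) :
    T.F K (v * y) ≤ T.F K y + K * ((T.τ 1).re - (T.τ v).re) / 4 * Real.pi := by
  have := T.ML (p := (1 / 2 : ℂ) • (1 - v)) (by simp [h1])
    (by rw [smul_mul_smul_comm, sub_mul, mul_sub, mul_sub, h2]; simp only [one_mul, mul_one]; module)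
    hy K Real.pi_pos.le
  have e : rot ((1 / 2 : ℂ) • (1 - v)) Real.pi = v := by
    rw [rot, exp_pi_mul_I]; module
  rw [e] at this
  convert this using 3
  simp
  ring

lemma FB {e y : A} (h1 : star e = e) (h2 : e * e = e) (hy : y ∈ unitary A) (hf : y * e = e)
    (K : ℕ) {δ : ℝ} (h0 : 0 < δ) (hp : δ ≤ Real.pi) :
    T.F K (exp (δ * I) • y) ≤ T.F K y + K * ((T.τ 1).re - (T.τ e).re) / 2 * δ -
      (K / 2 - 1 / (1 - Real.cos δ)) * (T.τ e).re * (Real.pi - δ) := by
  have a1 : star (1 - e) = 1 - e := by simp [h1]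
  have a2 : (1 - e) * (1 - e) = 1 - e := by simp [sub_mul, mul_sub, h2]
  have b := T.ML a1 a2 hy K h0.le
  set w := rot (1 - e) δ * y with hw
  have wu : w ∈ unitary A := mul_mem (rot_unitary a1 a2 δ) hy
  have w1 : w * e = e := by simp [hw, mul_assoc, hf, rot, add_mul, sub_mul, h2]
  have w2 : e * w = e := by
    have : star w * e = e := by
      conv_lhs => rw [← w1, ← mul_assoc, wu.1, one_mul]
    simpa [h1] using congrArg star this
  have c1 : exp (δ * I) • y = rot e δ * w := by
    rw [hw, ← mul_assoc, ← smul_one_mul]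
    congr 1
    simp only [rot, add_mul, mul_add, one_mul, mul_one, smul_mul_smul_comm, mul_sub, h2]
    module
  have c2 : ∀ (t : ℝ) k, (rot e t * w) ^ k = w ^ k + (exp (t * I) ^ k - 1) • e := fun t k => by
    induction k with
    | zero => simp
    | succ k ih =>
      rw [pow_succ, ih]
      simp only [pow_succ, rot, add_mul, mul_add, one_mul, smul_mul_assoc, w2, h2,
        mul_smul_comm, (show w ^ k * e = e from by
          clear ih; induction k with
          | zero => simp
          | succ k ih => rw [pow_succ, mul_assoc, w1, ih])]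
      module
  have c3 : ∀ (t : ℝ) k, (rot e t * w) ^ k * e = exp (t * I) ^ k • e := fun t k => by
    induction k with
    | zero => simp
    | succ k ih =>
      have : rot e t * e = exp (t * I) • e := by
        rw [rot, add_mul, smul_mul_assoc, h2, one_mul]; module
      rw [pow_succ, mul_assoc, mul_assoc, w1, this, mul_smul_comm, ih]
      module
  have ei : (T.τ e).im = 0 := by
    have := congrArg im (T.st e)
    simp only [h1, RCLike.star_def, conj_im] at this
    linarith
  have er : 0 ≤ (T.τ e).re := by simpa [h1, h2] using T.pos e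
  have c4 : T.F K (rot e Real.pi * w) = T.F K w := by
    simp only [F, c2, exp_pi_mul_I, map_add, map_smul, add_im, smul_eq_mul, mul_im, ei]
    norm_cast
    simp
  have hc : 0 < 1 - Real.cos δ := by
    have := Real.cos_lt_cos_of_nonneg_of_le_pi le_rfl hp h0
    simpa using this
  have d := (convex_Icc δ Real.pi).mul_sub_le_image_sub_of_le_deriv
    (C := (K / 2 - 1 / (1 - Real.cos δ)) * (T.τ e).re)
    (fun t _ => (T.deriv_F h1 h2 wu K t).continuousAt.continuousWithinAt)
    (fun t _ => (T.deriv_F h1 h2 wu K t).differentiableAt.differentiableWithinAt)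
    (fun t ht => by
      have ht' := interior_subset ht
      rw [(T.deriv_F h1 h2 wu K t).deriv, sum_mul]
      simp only [c3, ← sum_smul, star_smul, smul_mul_smul_comm, h1, h2, map_smul, smul_eq_mul]
      set s := ∑ k ∈ range K, exp (t * I) ^ k
      have g1 : ‖(1 - exp (t * I)) * s‖ ≤ 2 := by
        rw [mul_neg_geom_sum]
        refine (norm_sub_le _ _).trans ?_
        simp [one_add_one_eq_two]
      have g2 : normSq (1 - exp (t * I)) = 2 * (1 - Real.cos t) := by
        simp only [normSq_apply, sub_re, one_re, exp_ofReal_mul_I_re, sub_im, one_im,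
          exp_ofReal_mul_I_im]
        nlinarith [Real.sin_sq_add_cos_sq t]
      have g3 : normSq ((1 - exp (t * I)) * s) ≤ 4 := by
        rw [normSq_eq_norm_sq]; nlinarith [norm_nonneg ((1 - exp (t * I)) * s)]
      have g4 : Real.cos t ≤ Real.cos δ := Real.cos_le_cos_of_nonneg_of_le_pi h0.le ht'.2 ht'.1
      rw [map_mul, g2] at g3
      have g5 : normSq s / 2 ≤ 1 / (1 - Real.cos δ) := by
        rw [le_div_iff₀ hc]; nlinarith [normSq_nonneg s]
      rw [RCLike.star_def, ← normSq_eq_conj_mul_self, re_ofReal_mul]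
      nlinarith)
    δ ⟨le_rfl, hp⟩ Real.pi ⟨hp, le_rfl⟩ hp
  rw [map_sub, sub_re] at b
  rw [c1]
  simp only [c4] at d
  linarith

theorem final {n : ℕ} (hn : 0 < n) (h1 : T.τ 1 = n) {z N v D g e e' : A} (hz : z ∈ unitary A)
    (hN : N ∈ unitary A) (hg : g ∈ unitary A) (v1 : star v = v) (v2 : v * v = 1)
    (v3 : T.τ v = 0) (d1 : star D = D) (d2 : D * D = 1) (d3 : T.τ D = n - 1)
    (z1 : ∀ k, (T.τ (z ^ k)).im = 0) (n1 : ∀ k, (T.τ (N ^ k)).im = 0)
    (e1 : star e = e) (e2 : e * e = e) (e3 : z * e = e)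
    (f1 : star e' = e') (f2 : e' * e' = e') (f3 : N * e' = e')
    (hc : (n : ℝ) + 4 ≤ 2 * ((T.τ e).re + (T.τ e').re))
    (hG : g * (z * v) * star g = exp ((-(Real.pi / n) : ℝ) * I) • (D * N)) : False := by
  have hn' : (1 : ℝ) ≤ n := by exact_mod_cast hn
  have hpi := Real.pi_pos
  set δ : ℝ := Real.pi / (2 * n) with hδ
  have h0 : 0 < δ := by positivity
  have hδn : δ * n = Real.pi / 2 := by rw [hδ]; field_simp
  have hp : δ ≤ Real.pi := by nlinarith
  have hu : ∀ y ∈ unitary A, exp (δ * I) • y ∈ unitary A := fun y hy => by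
    constructor
    · rw [star_smul, smul_mul_smul_comm, hy.1, star_exp, one_smul]
    · rw [star_smul, smul_mul_smul_comm, hy.2, mul_comm, star_exp, one_smul]
  obtain ⟨K, hK⟩ := exists_nat_gt
    (4 * (1 / (1 - Real.cos δ) * ((T.τ e).re + (T.τ e').re) * (Real.pi - δ)) / Real.pi)
  rw [div_lt_iff₀ hpi] at hK
  have a1 := T.ML' v1 v2 (hu z hz) K
  have a2 := T.FB e1 e2 hz e3 K h0 hp
  have a3 := T.ML' d1 d2 (hu _ (Unitary.star_mem hN)) K
  have a4 := T.FB f1 f2 (Unitary.star_mem hN)
    (by conv_lhs => rw [← f3, ← mul_assoc, hN.1, one_mul]) K h0 hp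
  have a5 : T.F K (D * exp (δ * I) • star N) = -T.F K (v * exp (δ * I) • z) := by
    rw [T.F_comm, T.F_comm K v, ← one_mul (_ * v), ← hg.1, mul_assoc, T.F_comm K (star g),
      ← T.F_star, smul_mul_assoc _ z, mul_smul_comm, smul_mul_assoc _ (g * _), hG, smul_smul,
      star_smul, star_mul D, d1, smul_mul_assoc, ← exp_add, RCLike.star_def, ← exp_conj]
    congr 3
    simp only [hδ, map_add, map_mul, conj_ofReal, conj_I]
    push_cast
    ring
  rw [T.F_star, T.F_real K n1] at a4
  rw [T.F_real K z1] at a2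
  simp only [h1, v3, d3, natCast_re, sub_re, one_re, zero_re] at a1 a2 a3 a4
  have k0 : (0 : ℝ) ≤ K * Real.pi := by positivity
  have k1 : K * (δ * n) = K * (Real.pi / 2) := by rw [hδn]
  nlinarith [mul_le_mul_of_nonneg_left hc k0]

end Tr

end Vale.Agent.P174
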