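import Vale.Agent.P174.GroupAlg
import Vale.Agent.P174.Pairing
import Vale.Agent.P174.Proj

/-! The face side of the curvature inequality. -/

namespace Vale.Agent.P174

open scoped Matrix
open Complex Module

variable {C : Type*} [Fintype C] [DecidableEq C]

section Mono

variable {R : Type*} [Ring R]

/-- Monomial matrices. -/
def mono (f : C → C) (w : C → R) : Matrix C C R := Matrix.of fun c c' => if c' = f c then w c else 0

lemma mono_mul (f : C → C) (w : C → R) (M : Matrix C C R) (c c' : C) :
    (mono f w * M) c c' = w c * M (f c) c' := by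
  simp [mono, Matrix.mul_apply]

lemma mono_mul_mono (f g : C → C) (w v : C → R) :
    mono f w * mono g v = mono (fun c => g (f c)) fun c => w c * v (f c) := by
  ext c c'
  rw [mono_mul]
  simp [mono]

omit [Fintype C] in
lemma mono_eq_one {f : C → C} {w : C → R} (h : ∀ c, f c = c) (h' : ∀ c, w c = 1) :
    mono f w = 1 := by
  ext c c'
  simp [mono, h, h', Matrix.one_apply, eq_comm]

omit [Fintype C] in
lemma mono_star [StarRing R] {f g : C → C} (h : ∀ c, f (g c) = c) (h' : ∀ c, g (f c) = c)
    (w : C → R) : (mono f w)ᴴ = mono g fun c => star (w (g c)) := by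
  ext c c'
  simp only [mono, Matrix.conjTranspose_apply, Matrix.of_apply]
  by_cases e : c' = g c
  · simp [e, h]
  · rw [if_neg e, if_neg (fun e' => e (by rw [e', h'])), star_zero]

lemma mul_mono_id (w : C → R) (M : Matrix C C R) (c c' : C) :
    (M * mono (fun c => c) w) c c' = M c c' * w c' := by
  simp [mono, Matrix.mul_apply]

end Mono

lemma mono_unitary {f g : C → C} (h : ∀ c, f (g c) = c) (h' : ∀ c, g (f c) = c) :
    mono f (fun _ => (1 : ℂ)) ∈ unitary (Matrix C C ℂ) := by
  constructor <;> rw [Matrix.star_eq_conjTranspose, mono_star h h', mono_mul_mono] <;>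
    exact mono_eq_one (by simp [h, h']) (by simp)

lemma im_trace_of_conj {M : Matrix C C ℂ} (h : M.map (starRingEnd ℂ) = M) (k : ℕ) :
    (M ^ k).trace.im = 0 := by
  have := AddMonoidHom.map_trace (starRingEnd ℂ) (M ^ k)
  rw [← RingHom.mapMatrix_apply, map_pow, RingHom.mapMatrix_apply, h] at this
  exact conj_eq_iff_im.mp this

/-- The pairing matrix with phases. -/
noncomputable def phm (O : Cyc C) (π : C → C) : Matrix C C ℂ :=
  mono π fun c => exp ((Real.pi / O.n * (O.pos (π c) - O.pos c) : ℝ) * I)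

omit [Fintype C] in
lemma phm_star (O : Cyc C) {π : C → C} (h : ∀ c, π (π c) = c) : (phm O π)ᴴ = phm O π := by
  rw [phm, mono_star h h]
  congr 1
  funext c
  rw [RCLike.star_def, ← exp_conj, h]
  congr 1
  simp only [map_mul, conj_ofReal, conj_I]
  push_cast
  ring

lemma phm_sq (O : Cyc C) {π : C → C} (h : ∀ c, π (π c) = c) : phm O π * phm O π = 1 := by
  rw [phm, mono_mul_mono]
  refine mono_eq_one h fun c => ?_
  rw [← exp_add, h, ← exp_zero]
  congr 1
  push_cast
  ring

theorem uside {G : Type*} [Group G] (O : Cyc C) (hn : Fintype.card C = O.n) (lab : ℕ → G)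
    (g1 : pre lab O.n ≠ 1) (g2 : pre lab O.n * pre lab O.n = 1) {π : Equiv.Perm C}
    (p1 : ∀ c, π (π c) = c) (p2 : ∀ c, pre lab (O.pos (π c) + 1) = pre lab (O.pos c + 1))
    (W : Submodule ℂ (C → ℂ)) (hW : ∀ f ∈ W, ∀ c, f (O.σ (π c)) = f c)
    {T e : Matrix C C ℂ} (t1 : Tᴴ = T) (t2 : T * T = 1) (t3 : ∀ c, T c c = 0)
    (t4 : ∀ c c', T c c' ≠ 0 → lab (O.pos c') = (lab (O.pos c))⁻¹)
    (z1 : ∀ k, ((phm O π * mono O.σ (fun _ => 1) * T) ^ k).trace.im = 0)
    (e1 : eᴴ = e) (e2 : e * e = e) (e3 : phm O π * mono O.σ (fun _ => 1) * T * e = e)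
    (hc : (O.n : ℝ) + 4 ≤ 2 * (e.trace.re + finrank ℂ W)) : False := by
  let R := MonoidAlgebra ℂ G
  let u : G →* R := MonoidAlgebra.of ℂ G
  have u1 : ∀ g, star (u g) = u g⁻¹ := fun g => (star_single g 1).trans (by rw [star_one]; rfl)
  have u2 : (gtr G).τ (u (pre lab O.n)) = 0 := Finsupp.single_eq_of_ne g1.symm
  have u3 : (gtr G).τ 1 = 1 := MonoidAlgebra.coeff_one_one
  let j : Matrix C C ℂ →ₐ[ℂ] Matrix C C R := (Algebra.ofId ℂ R).mapMatrix
  have j0 : ∀ M c c', j M c c' = M c c' • (1 : R) := fun M c c' =>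
    Algebra.algebraMap_eq_smul_one (A := R) (M c c')
  have j1 : ∀ M, star (j M) = j Mᴴ := fun M => by
    ext1 c c'; simp [j0]
  have t0 : ∀ M, ((gtr G).mat C).τ M = ∑ c, (gtr G).τ (M c c) := fun M => map_sum (gtr G).τ _ _
  have j2 : ∀ M, ((gtr G).mat C).τ (j M) = M.trace := fun M => by
    simp [t0, j0, u3, Matrix.trace]
  have j3 : ∀ M ∈ unitary _, j M ∈ unitary _ := fun M hM =>
    ⟨by rw [j1, ← map_mul, ← map_one j]; exact congrArg j hM.1,
      by rw [j1, ← map_mul, ← map_one j]; exact congrArg j hM.2⟩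
  have j4 : ∀ f w, j (mono f w) = mono f fun c => w c • (1 : R) := fun f w => by
    ext1 c c'
    rw [j0]
    simp only [mono, Matrix.of_apply]
    split_ifs <;> simp
  have hid : ∀ c : C, (fun c => c) ((fun c => c) c) = c := fun _ => rfl
  obtain ⟨e', f1, f2, f3, f4⟩ := exists_proj W
  obtain ⟨l, hl⟩ := O.surj (O.n - 1) (by have := O.npos; omega)
  have hl' : ∀ c, O.pos (π c) + 1 = O.n ↔ c = π l := fun c => by
    have := O.npos
    refine ⟨fun h => ?_, fun h => by rw [h, p1]; omega⟩
    rw [← O.inj (show O.pos (π c) = O.pos l by omega), p1]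
  let v := j T * mono (fun c => c) fun c => u (lab (O.pos c))
  have v1 : star v = v := by
    ext1 c c'
    simp only [v]
    rw [Matrix.star_apply, mul_mono_id, mul_mono_id, j0, j0, ← t1, Matrix.conjTranspose_apply, t1]
    by_cases h : T c c' = 0
    · simp [h]
    · simp [u1, t4 c c' h]
  refine ((gtr G).mat C).final O.npos (by rw [← map_one j, j2]; simp [hn])
    (z := j (phm O π * mono O.σ (fun _ => 1) * T)) (N := j (mono (fun c => O.σ (π c)) fun _ => 1))
    (v := v) (D := mono (fun c => c) fun c => if c = π l then -u (pre lab O.n) else 1)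
    (g := mono (fun c => c) fun c =>
      exp ((Real.pi / O.n * O.pos c : ℝ) * I) • u (pre lab (O.pos c + 1)))
    (e := j e) (e' := j e') (j3 _ (mul_mem (mul_mem ?_ ?_) ?_)) (j3 _ ?_) ?_ v1 ?_ ?_ ?_ ?_ ?_
    (fun k => by rw [← map_pow, j2, z1]) (fun k => ?_) (by rw [j1, e1]) (by rw [← map_mul, e2])
    (by rw [← map_mul, e3]) (by rw [j1, f1]) (by rw [← map_mul, f2]) ?_
    (by rwa [j2, j2, f3, natCast_re]) ?_
  · constructor <;> rw [Matrix.star_eq_conjTranspose, phm_star O p1, phm_sq O p1]
  · exact mono_unitary O.σ.apply_symm_apply O.σ.symm_apply_apply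
  · constructor <;> rw [Matrix.star_eq_conjTranspose, t1, t2]
  · exact mono_unitary (g := fun c => π (O.σ.symm c)) (by simp [p1]) (by simp [p1])
  · constructor <;> rw [Matrix.star_eq_conjTranspose, mono_star hid hid, mono_mul_mono] <;>
      refine mono_eq_one hid fun c => ?_
    · rw [star_smul, smul_mul_smul_comm, star_exp, u1, ← map_mul]; simp
    · rw [star_smul, smul_mul_smul_comm, mul_comm, star_exp, u1, ← map_mul]; simp
  · conv_lhs => congr; rfl; rw [← v1, star_mul, j1, t1]
    rw [mul_assoc, ← mul_assoc (mono _ _), Matrix.star_eq_conjTranspose, mono_star hid hid,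
      mono_mul_mono, mono_eq_one hid fun c => by rw [u1, ← map_mul]; simp, one_mul, ← map_mul, t2,
      map_one]
  · simp [t0, v, mul_mono_id, j0, t3]
  · rw [Matrix.star_eq_conjTranspose, mono_star hid hid]
    congr 1
    funext c
    split_ifs
    · rw [star_neg, u1, inv_eq_of_mul_eq_one_left g2]
    · exact star_one _
  · rw [mono_mul_mono]
    refine mono_eq_one hid fun c => ?_
    split_ifs
    · rw [neg_mul_neg, ← map_mul, g2, map_one]
    · exact mul_one _
  · rw [t0, Finset.sum_congr rfl (g := fun c => 1 - if c = π l then 1 else 0)]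
    · simp [hn]
    · intro c _
      simp only [mono, Matrix.of_apply, if_true]
      split_ifs <;> simp [u2, u3]
  · rw [← map_pow, j2]
    refine im_trace_of_conj ?_ k
    ext c c'
    simp only [mono, Matrix.map_apply, Matrix.of_apply]
    split_ifs <;> simp
  · rw [← map_mul, f4]
    intro x hx
    funext c
    simp [mono, Matrix.mulVec, dotProduct, hW x hx]
  · rw [← mul_assoc (j _), ← map_mul, mul_assoc _ T, t2, mul_one, phm, mono_mul_mono, j4, j4,
      Matrix.star_eq_conjTranspose, mono_star hid hid, mono_mul_mono, mono_mul_mono, mono_mul_mono,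
      mono_mul_mono]
    ext1 c c'
    simp only [mono, Matrix.smul_apply, Matrix.of_apply]
    by_cases h : c' = O.σ (π c)
    swap
    · simp [h]
    have hn0 : (O.n : ℂ) ≠ 0 := by exact_mod_cast O.npos.ne'
    simp only [h, if_true, star_smul, u1, smul_mul_assoc, mul_smul_comm, smul_smul, one_mul,
      mul_one, one_smul, ← map_mul, ← p2 c, RCLike.star_def, ← exp_conj, ← exp_add, O.succ]
    by_cases h2 : O.pos (π c) + 1 = O.n
    · rw [if_pos h2, if_pos ((hl' c).mp h2), h2, pre.eq_2 lab 0, pre.eq_1, one_mul,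
        mul_inv_cancel_right, smul_neg, ← neg_smul]
      congr 1
      rw [← neg_one_mul, ← exp_pi_mul_I, ← exp_add]
      congr 1
      have : (O.pos (π c) : ℂ) = O.n - 1 := by rw [← h2]; simp
      simp only [map_mul, conj_ofReal, conj_I]
      push_cast
      rw [this]
      field_simp
      ring
    · simp only [if_neg h2, if_neg (mt (hl' c).mpr h2)]
      rw [pre.eq_2 lab (O.pos (π c) + 1), mul_inv_cancel, map_one]
      congr 2
      simp only [map_mul, conj_ofReal, conj_I]
      push_cast
      ring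

end Vale.Agent.P174
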