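import Vale.Agent.P174.Core
import Mathlib.Data.List.GetD

/-! Words with coefficients. -/

namespace Vale.Agent.P174

open Monoid

section Pre

variable {H : Type*} [Monoid H]

lemma pre_congr {f g : ℕ → H} {n : ℕ} (h : ∀ r < n, f r = g r) : pre f n = pre g n := by
  induction n with
  | zero => rfl
  | succ n ih => rw [pre, pre, ih fun r hr => h r (by omega), h n (by omega)]

lemma pre_add (f : ℕ → H) (m n : ℕ) : pre f (m + n) = pre f m * pre (fun r => f (m + r)) n := by
  induction n with
  | zero => simp [pre]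
  | succ n ih => rw [← add_assoc, pre, pre, ih, mul_assoc]

lemma pre_list {α : Type*} (l : List α) (f : α → H) (x : α) :
    pre (fun i => f (l.getD i x)) l.length = (l.map f).prod := by
  induction l with
  | nil => rfl
  | cons a l ih =>
    rw [List.length_cons, add_comm, pre_add, List.map_cons, List.prod_cons, ← ih]
    simp [pre, add_comm]

lemma pre_mul (f : ℕ → ℕ → H) (l V : ℕ) :
    pre (fun p => f (p / l) (p % l)) (V * l) = pre (fun D => pre (f D) l) V := by
  induction V with
  | zero => simp [pre]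
  | succ V ih =>
    rw [add_mul, one_mul, pre_add, ih, pre]
    congr 1
    refine pre_congr fun r hr => ?_
    rw [Nat.mul_add_mod', Nat.mod_eq_of_lt hr, add_comm, Nat.add_mul_div_right _ _ (by omega),
      Nat.div_eq_of_lt hr, zero_add]

end Pre

variable {G J : Type*} [Group G]

/-- Value of the first `n` letters of a word. -/
def ev (W : ℕ → G × Option (J × Bool)) (n : ℕ) : Coprod G (FreeGroup J) :=
  pre (fun r => letter (W r).1 (W r).2) n

lemma exists_word (h : Coprod G (FreeGroup J)) : ∃ (W : ℕ → G × Option (J × Bool)) (N : ℕ),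
    ∀ a, N ≤ a → (W a).2 = none ∧ ev W (a + 1) = h := by
  have : ∃ l : List (G × Option (J × Bool)), (l.map fun p => letter p.1 p.2).prod = h := by
    induction h using Coprod.induction_on with
    | inl g => exact ⟨[(g, none)], by simp [letter, lt]⟩
    | inr x =>
      induction x using FreeGroup.induction_on with
      | C1 => exact ⟨[], by simp⟩
      | of j => exact ⟨[(1, some (j, true))], by simp [letter, lt]⟩
      | inv_of j _ => exact ⟨[(1, some (j, false))], by simp [letter, lt]⟩
      | mul x y a b =>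
        obtain ⟨l, hl⟩ := a
        obtain ⟨l', hl'⟩ := b
        exact ⟨l ++ l', by simp [hl, hl']⟩
    | mul x y a b =>
      obtain ⟨l, hl⟩ := a
      obtain ⟨l', hl'⟩ := b
      exact ⟨l ++ l', by simp [hl, hl']⟩
  obtain ⟨l, rfl⟩ := this
  refine ⟨fun r => l.getD r (1, none), l.length, fun a ha => ⟨by simp [ha], ?_⟩⟩
  obtain ⟨k, rfl⟩ := Nat.exists_eq_add_of_le ha
  rw [ev, add_assoc, pre_add, pre_list l fun p => letter p.1 p.2, mul_eq_left]
  generalize k + 1 = k
  induction k with
  | zero => rfl
  | succ k ih => rw [pre, ih, List.getD_eq_default _ _ (by omega)]; simp [letter, lt]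

/-- The inverse word. -/
def rv (W : ℕ → G × Option (J × Bool)) (a r : ℕ) : G × Option (J × Bool) :=
  ((W (a - r)).1⁻¹, if r < a then (W (a - 1 - r)).2.map inv else none)

lemma ev_rv {W : ℕ → G × Option (J × Bool)} {a : ℕ} (h : (W a).2 = none) :
    ev (rv W a) (a + 1) = (ev W (a + 1))⁻¹ := by
  have key : ∀ r k, r + k = a → ev W (a + 1) * ev (rv W a) r = ev W k * Coprod.inl (W k).1 := by
    intro r
    induction r with
    | zero => rintro k rfl; simp_all [ev, pre, letter, lt]
    | succ r ih =>
      intro k hk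
      rw [ev.eq_1 _ (r + 1), pre, ← mul_assoc, ← ev, ih (k + 1) (by omega), rv, if_pos (by omega),
        show a - r = k + 1 by omega, show a - 1 - r = k by omega]
      simp [ev, pre, letter, lt_inv, mul_assoc]
  rw [eq_inv_iff_mul_eq_one, mul_eq_one_comm, ev.eq_1 (rv W a), pre, ← mul_assoc, ← ev, key a 0 rfl]
  simp [ev, pre, letter, lt, rv]

/-- The exponent-sum homomorphism. -/
def expHom (G J : Type*) [Group G] [DecidableEq J] :
    Coprod G (FreeGroup J) →* Multiplicative (J → ℤ) :=
  Coprod.lift 1 (FreeGroup.lift fun j => Multiplicative.ofAdd (Pi.single j 1))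

lemma expHom_ev [DecidableEq J] (W : ℕ → G × Option (J × Bool)) (n : ℕ) (j : J) :
    (expHom G J (ev W n)).toAdd j = ∑ r ∈ Finset.range n,
      ((if (W r).2 = some (j, true) then 1 else 0) - if (W r).2 = some (j, false) then 1 else 0) := by
  induction n with
  | zero => simp [ev, pre]
  | succ n ih =>
    rw [Finset.sum_range_succ, ← ih, ev, pre, map_mul, toAdd_mul, Pi.add_apply]
    congr 1
    rcases (W n).2 with _ | ⟨i, _ | _⟩ <;> simp [letter, lt, expHom, Pi.single_apply, eq_comm]

lemma exists_list {H : Type*} [Group H] (w : J → H) {x : H}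
    (hx : x ∈ Subgroup.normalClosure (Set.range w)) : ∃ l : List (H × J × Bool),
      (l.map fun p => p.1 * lt w (some p.2) * p.1⁻¹).prod = x := by
  induction hx using Subgroup.closure_induction'' with
  | one => exact ⟨[], rfl⟩
  | mem x hx =>
    obtain ⟨_, ⟨i, rfl⟩, h⟩ := Group.mem_conjugatesOfSet_iff.mp hx
    obtain ⟨c, rfl⟩ := isConj_iff.mp h
    exact ⟨[(c, i, true)], by simp [lt]⟩
  | inv_mem x hx =>
    obtain ⟨_, ⟨i, rfl⟩, h⟩ := Group.mem_conjugatesOfSet_iff.mp hx
    obtain ⟨c, rfl⟩ := isConj_iff.mp h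
    exact ⟨[(c, i, false)], by simp [lt, mul_assoc]⟩
  | mul x y _ _ a b =>
    obtain ⟨l, hl⟩ := a
    obtain ⟨l', hl'⟩ := b
    exact ⟨l ++ l', by simp [hl, hl']⟩

lemma exists_balanced [Fintype J] [DecidableEq J] {d : ℕ} (hd : 0 < d)
    (w : J → Coprod G (FreeGroup J))
    (hw : ∀ i j, (expHom G J (w i)).toAdd j = if i = j then d else 0) {g : G}
    (hg : Coprod.inl g ∈ Subgroup.normalClosure (Set.range w)) :
    ∃ (V k : ℕ) (h : ℕ → Coprod G (FreeGroup J)) (cls : ℕ → Option (J × Bool))
      (e : Fin V ≃ (J × Bool) × Fin (k + 1)), (∀ D : Fin V, cls D = some (e D).1) ∧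
      pre (fun D => h D * lt w (cls D) * (h D)⁻¹) V = Coprod.inl g := by
  let cnt : List (Coprod G (FreeGroup J) × J × Bool) → J × Bool → ℕ := fun l t =>
    (l.map fun p => if p.2 = t then 1 else 0).sum
  obtain ⟨l, hl⟩ := exists_list w hg
  have h1 : ∀ (l : List (Coprod G (FreeGroup J) × J × Bool)) i,
      (expHom G J (l.map fun p => p.1 * lt w (some p.2) * p.1⁻¹).prod).toAdd i =
        d * ((cnt l (i, true) : ℤ) - cnt l (i, false)) := by
    intro l i
    induction l with
    | nil => simp [cnt]
    | cons p l ih =>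
      rw [List.map_cons, List.prod_cons, map_mul, toAdd_mul, Pi.add_apply, ih]
      rcases p with ⟨c, j, _ | _⟩ <;> by_cases h : j = i <;> simp [cnt, lt, hw, h] <;> ring
  have h2 : ∀ i, cnt l (i, true) = cnt l (i, false) := fun i => by
    have := h1 l i
    rw [hl] at this
    simp only [expHom, Coprod.lift_apply_inl, MonoidHom.one_apply, toAdd_one, Pi.zero_apply,
      zero_eq_mul, Nat.cast_eq_zero, sub_eq_zero, Nat.cast_inj] at this
    omega
  have h3 : ∀ (s : Finset J) (c : J → ℕ), ∃ l : List (Coprod G (FreeGroup J) × J × Bool),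
      (l.map fun p => p.1 * lt w (some p.2) * p.1⁻¹).prod = 1 ∧
        ∀ t, cnt l t = if t.1 ∈ s then c t.1 else 0 := by
    intro s c
    induction s using Finset.induction_on with
    | empty => exact ⟨[], rfl, by simp [cnt]⟩
    | insert i s hi ih =>
      obtain ⟨l, a, b⟩ := ih
      refine ⟨.replicate (c i) (1, i, true) ++ .replicate (c i) (1, i, false) ++ l,
        by rw [List.map_append, List.prod_append, a]; simp [lt], ?_⟩
      rintro ⟨j, t⟩
      have := b (j, t)
      simp only [cnt] at this
      by_cases h : j = i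
      · rcases t with _ | _ <;> simp_all [cnt]
      · simp [cnt, this, h, Ne.symm h]
  obtain ⟨k, hk⟩ := (Set.finite_range fun i => cnt l (i, true)).bddAbove
  obtain ⟨l', a, b⟩ := h3 Finset.univ fun i => k + 1 - cnt l (i, true)
  have h4 : ∀ t, cnt (l ++ l') t = k + 1 := by
    rintro ⟨i, t⟩
    have : cnt l (i, true) ≤ k := hk ⟨i, rfl⟩
    have e : cnt (l ++ l') (i, t) = cnt l (i, t) + cnt l' (i, t) := by simp [cnt]
    rcases t with _ | _ <;> simp only [e, b, Finset.mem_univ, if_true, ← h2] <;> omega
  have h5 : ((l ++ l').map fun p => p.1 * lt w (some p.2) * p.1⁻¹).prod = Coprod.inl g := by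
    rw [List.map_append, List.prod_append, a, hl, mul_one]
  generalize l ++ l' = l at h4 h5
  have h6 : ∀ t, Fintype.card {D : Fin l.length // l[D.1].2 = t} = k + 1 := fun t => by
    rw [Fintype.card_subtype, Finset.card_filter, ← h4 t]
    exact Fin.sum_univ_fun_getElem l fun p => if p.2 = t then 1 else 0
  refine ⟨l.length, k, fun D => ((l.map fun p => (p.1, some p.2)).getD D (1, none)).1,
    fun D => ((l.map fun p => (p.1, some p.2)).getD D (1, none)).2,
    (Equiv.sigmaFiberEquiv fun D : Fin l.length => l[D.1].2).symm.trans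
      ((Equiv.sigmaCongrRight fun t => Fintype.equivFinOfCardEq (h6 t)).trans
        (Equiv.sigmaEquivProd _ _)), fun D => by simp [Equiv.sigmaFiberEquiv], ?_⟩
  have := pre_list (l.map fun p => (p.1, some p.2)) (fun p => p.1 * lt w p.2 * p.1⁻¹) (1, none)
  rw [List.length_map, List.map_map] at this
  exact this.trans h5

end Vale.Agent.P174
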