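import Vale.Agent.P174.USide
import Vale.Agent.P174.TLc

/-! The vertex side of the curvature inequality. -/

namespace Vale.Agent.P174

open scoped Matrix

set_option linter.unusedSectionVars false

variable {C κ P J : Type*} [Fintype C] [DecidableEq C] [Fintype κ] [DecidableEq κ]
  [Fintype P] [DecidableEq P] [Fintype J] [DecidableEq J]

/-- The isometry onto a block of coordinates. -/
def iso (b : κ → C) : Matrix C κ ℂ := Matrix.of fun c a => if c = b a then 1 else 0

lemma iso_mul (b b' : κ → C) (x y : κ) :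
    ((iso b)ᴴ * iso b') x y = if b x = b' y then 1 else 0 := by
  simp [iso, Matrix.mul_apply, apply_ite star, eq_comm]

/-- The block unitary. -/
def blkU (s : Finset P) (b : P → κ → C) (y : P → Matrix κ κ ℂ) : Matrix C C ℂ :=
  1 + ∑ p ∈ s, iso (b p) * (y p - 1) * (iso (b p))ᴴ

variable {b : P → κ → C} (hb : ∀ p a p' a', b p a = b p' a' → p = p' ∧ a = a')

include hb

lemma iso_one (p : P) : (iso (b p))ᴴ * iso (b p) = 1 := by
  ext x y
  rw [iso_mul, Matrix.one_apply]
  exact if_congr ⟨fun h => (hb _ _ _ _ h).2, fun h => by rw [h]⟩ rfl rfl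

lemma iso_zero (p p' : P) (h : p ≠ p') : (iso (b p))ᴴ * iso (b p') = 0 := by
  ext x y
  rw [iso_mul, if_neg fun e => h (hb _ _ _ _ e).1, Matrix.zero_apply]

lemma blkU_unitary (s : Finset P) {y : P → Matrix κ κ ℂ} (hy : ∀ p, y p ∈ unitary _) :
    blkU s b y ∈ unitary _ := by
  induction s using Finset.induction_on with
  | empty => simp [blkU, one_mem]
  | insert p s hp ih =>
    rw [blkU, hat_insert _ (iso_zero hb) _ hp]
    exact mul_mem (hat_unitary (iso_one hb p) (hy p)) ih

omit hb in
lemma blkU_apply (s : Finset P) (y : P → Matrix κ κ ℂ) (c c' : C) :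
    blkU s b y c c' = (if c = c' then 1 else 0) ∨ ∃ p x x', c = b p x ∧ c' = b p x' := by
  rw [or_iff_not_imp_right]
  intro h
  rw [blkU, Matrix.add_apply, Matrix.one_apply, Matrix.sum_apply, add_eq_left]
  refine Finset.sum_eq_zero fun p _ => ?_
  simp only [Matrix.mul_apply, Finset.sum_mul]
  refine Finset.sum_eq_zero fun x' _ => Finset.sum_eq_zero fun x _ => ?_
  by_cases h1 : c = b p x
  · have : c' ≠ b p x' := fun h2 => h ⟨p, x, x', h1, h2⟩
    simp [iso, this]
  · simp [iso, h1]

lemma herm [Nonempty κ] {a : C → C} (ha : ∀ c, a (a c) = c) {bar : P → P}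
    (h1 : ∀ p x, a (b p x) = b (bar p) x) {idx : P → J × Bool} (h2 : ∀ p, idx (bar p) = inv (idx p))
    {τ : J → Matrix κ κ ℂ} (hτ : ∀ i, τ i ∈ unitary _) {T : Matrix C C ℂ}
    (hT : T = mono a (fun _ => 1) * blkU Finset.univ b fun p => sgn τ (idx p)) :
    Tᴴ = T ∧ T * T = 1 ∧ ∀ c, T c c = if a c = c then 1 else 0 := by
  obtain ⟨x0⟩ := ‹Nonempty κ›
  have hbar : Function.Involutive bar := fun p => (hb _ x0 _ x0 (by rw [← h1, ← h1, ha])).1
  set M : Matrix C C ℂ := mono a fun _ => 1 with hM
  have m1 : Mᴴ = M := by simp [hM, mono_star ha ha]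
  have m2 : M * M = 1 := by rw [hM, mono_mul_mono]; exact mono_eq_one ha (by simp)
  have m3 : ∀ p, M * iso (b p) = iso (b (bar p)) := fun p => by
    ext c x
    simp only [hM, mono, iso, Matrix.mul_apply, Matrix.of_apply, ite_mul, one_mul, zero_mul,
      Finset.sum_ite_eq', Finset.mem_univ, if_true, ← h1]
    exact if_congr ⟨fun h => by rw [← h, ha], fun h => by rw [h, ha]⟩ rfl rfl
  have s1 : ∀ t, (sgn τ t)ᴴ = sgn τ (inv t) := by
    rintro ⟨i, _ | _⟩ <;> simp [sgn, inv, Matrix.star_eq_conjTranspose]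
  have e1 : Tᴴ = T := by
    rw [hT, Matrix.conjTranspose_mul, m1, blkU, Matrix.conjTranspose_add, add_mul, mul_add,
      Matrix.conjTranspose_one, one_mul, mul_one, Matrix.conjTranspose_sum, Finset.sum_mul,
      Finset.mul_sum, ← Equiv.sum_comp (hbar.toPerm bar)]
    congr 1
    refine Finset.sum_congr rfl fun p _ => ?_
    simp only [Function.Involutive.coe_toPerm, Matrix.conjTranspose_mul, h2, s1, inv_inv',
      Matrix.conjTranspose_conjTranspose, Matrix.conjTranspose_sub, Matrix.conjTranspose_one,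
      ← m3, m1, Matrix.mul_assoc, m2, Matrix.mul_one]
  refine ⟨e1, ?_, fun c => ?_⟩
  · have u : ∀ t, sgn τ t ∈ unitary _ := by
      rintro ⟨i, _ | _⟩
      exacts [Unitary.star_mem (hτ i), hτ i]
    conv_lhs => congr; rw [← e1]
    rw [hT, Matrix.conjTranspose_mul, m1, mul_assoc, ← mul_assoc M, m2, one_mul]
    exact (blkU_unitary hb _ fun p => u _).1
  · rw [hT, mono_mul, one_mul]
    refine (blkU_apply _ _ _ _).resolve_right ?_
    rintro ⟨p, x, x', e, rfl⟩
    rw [h1] at e
    exact inv_ne _ ((h2 p).symm.trans (congrArg idx (hb _ _ _ _ e).1))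

omit hb

lemma im_trace_herm {A B : Matrix C C ℂ} (hA : Aᴴ = A) (hB : Bᴴ = B) (k : ℕ) :
    ((A * B) ^ k).trace.im = 0 := by
  rw [← Complex.conj_eq_iff_im, ← RCLike.star_def, ← Matrix.trace_conjTranspose,
    Matrix.conjTranspose_pow, Matrix.conjTranspose_mul, hA, hB]
  rcases k with _ | k
  · simp
  · rw [pow_succ, ← mul_assoc, Matrix.trace_mul_comm, ← mul_assoc, ← mul_pow_mul, mul_assoc,
      ← pow_succ]

/-- Coordinate projections. -/
def chi {S : Type*} [DecidableEq S] (m : C → S) (s : S) : Matrix C C ℂ :=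
  mono (fun c => c) fun c => if m c = s then 1 else 0

section Chi

variable {S : Type*} [DecidableEq S] (m : C → S)

lemma chi_mul (s s' : S) : chi m s * chi m s' = if s = s' then chi m s else 0 := by
  ext c c'
  rw [chi, mono_mul]
  by_cases h : s = s' <;> by_cases h1 : m c = s <;> by_cases h2 : c' = c <;>
    simp_all [chi, mono]

lemma chi_star (s : S) : (chi m s)ᴴ = chi m s := by
  simp [chi, mono_star (f := fun c => c) (g := fun c => c), apply_ite star]

lemma chi_comm {f : S → S} (hf : Function.Injective f) {X : Matrix C C ℂ}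
    (h : ∀ c c', X c c' ≠ 0 → m c' = f (m c)) (s : S) : chi m s * X = X * chi m (f s) := by
  ext c c'
  rw [chi, chi, mono_mul, mul_mono_id]
  by_cases h0 : X c c' = 0
  · simp [h0]
  · simp [h c c' h0, hf.eq_iff]

lemma chi_iso (s : S) {b : κ → C} {t : S} (h : ∀ x, m (b x) = t) :
    chi m s * iso b = if t = s then iso b else 0 := by
  ext c x
  have : (chi m s * iso b) c x = (if m c = s then 1 else 0) * iso b c x := by
    simp [chi, mono, Matrix.mul_apply]
  rw [this]
  by_cases h1 : c = b x <;> by_cases h2 : t = s <;> simp [iso, h1, h2, h]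

lemma chi_trace (s : S) (X : Matrix C C ℂ) (q : C → Prop) [DecidablePred q]
    (h : ∀ c, m c = s → X c c = if q c then 1 else 0) :
    (chi m s * X).trace.re = (Finset.univ.filter fun c => m c = s ∧ q c).card := by
  rw [Matrix.trace, Finset.sum_congr rfl (g := fun c => if m c = s ∧ q c then 1 else 0)]
  · simp
  · intro c _
    rw [Matrix.diag, chi, mono_mul]
    by_cases h1 : m c = s <;> simp [h1, h c]

lemma sum_proj [Fintype S] (e : S → Matrix C C ℂ) (h1 : ∀ s, (e s)ᴴ = e s)
    (h2 : ∀ s, e s * e s = e s) (h3 : ∀ s, chi m s * e s = e s) :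
    (∑ s, e s) * ∑ s, e s = ∑ s, e s := by
  rw [Finset.sum_mul_sum]
  refine Finset.sum_congr rfl fun s _ => (Finset.sum_eq_single s (fun s' _ h => ?_) (by simp)).trans (h2 s)
  have : e s * chi m s = e s := by
    simpa [h1, chi_star] using congrArg Matrix.conjTranspose (h3 s)
  rw [← this, ← h3 s', mul_assoc, ← mul_assoc (chi m s), chi_mul, if_neg h.symm]
  simp

end Chi

theorem zside [Nonempty κ] (hb : ∀ p a p' a', b p a = b p' a' → p = p' ∧ a = a')
    (m : C → Option (J × Bool)) {a : C → C} (ha : ∀ c, a (a c) = c) {bar : P → P}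
    (h1 : ∀ p x, a (b p x) = b (bar p) x) {idx : P → J × Bool} (h2 : ∀ p, idx (bar p) = inv (idx p))
    (h3 : ∀ c, m (a c) = (m c).map inv) {mb : P → Option (J × Bool)} (h4 : ∀ p x, m (b p x) = mb p)
    {d : ℕ} (hd : 0 < d)
    (hc : ∀ j i, (Finset.univ.filter fun p => idx p = (i, true) ∧ mb p = some (j, true)).card =
      (Finset.univ.filter fun p => idx p = (i, true) ∧ mb p = some (j, false)).card +
        if i = j then d else 0)
    {B : Matrix C C ℂ} (b1 : Bᴴ = B) (b2 : B * B = 1)
    (b3 : ∀ c c', B c c' ≠ 0 → m c' = (m c).map inv) :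
    ∃ τ : J → Matrix κ κ ℂ, (∀ i, τ i ∈ unitary _) ∧ ∃ e : Matrix C C ℂ, eᴴ = e ∧ e * e = e ∧
      B * (mono a (fun _ => 1) * blkU Finset.univ b fun p => sgn τ (idx p)) * e = e ∧
      ((Finset.univ.filter fun c => m c = none ∧ a c = c).card + (chi m none * B).trace.re +
        4 * (Fintype.card J * Fintype.card κ) ≤ 2 * e.trace.re) := by
  obtain ⟨x0⟩ := ‹Nonempty κ›
  have hbar : Function.Involutive bar := fun p => (hb _ x0 _ x0 (by rw [← h1, ← h1, ha])).1
  have hi : Function.Involutive (Option.map inv : Option (J × Bool) → _) := by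
    rintro (_ | t) <;> simp
  set M : Matrix C C ℂ := mono a fun _ => 1 with hM
  have cB := chi_comm m hi.injective b3
  have cM := chi_comm m hi.injective (X := M) fun c c' h => by
    by_cases e : c' = a c
    · rw [e, h3]
    · simp [hM, mono, e] at h
  have cZ : ∀ s, chi m s * (B * M) = B * M * chi m s := fun s => by
    rw [← mul_assoc, cB, mul_assoc, cM, hi, mul_assoc]
  have cc : ∀ s, chi m s * chi m s = chi m s := fun s => by simp [chi_mul]
  have uZ : B * M ∈ unitary _ := mul_mem (by constructor <;> rw [Matrix.star_eq_conjTranspose, b1, b2])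
    (mono_unitary ha ha)
  obtain ⟨τ, hτ, he⟩ := TLc hd (fun j => Finset.univ.filter fun p => mb p = some (j, true)) idx
    (fun p => iso (b p)) (iso_one hb) (iso_zero hb)
    (fun j => B * M * chi m (some (j, true)) - (1 - chi m (some (j, true)))) (fun j => by
      generalize hZ : B * M = Z at cZ uZ
      have c1 := cZ (some (j, true))
      have c2 := cc (some (j, true))
      have c3 := chi_star m (some (j, true))
      generalize chi m (some (j, true)) = χ at c1 c2 c3
      refine Matrix.mem_unitaryGroup_iff'.mpr ?_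
      have u : Zᴴ * Z = 1 := uZ.1
      have c4 : χ * Zᴴ = Zᴴ * χ := by simpa [c3] using congrArg Matrix.conjTranspose c1.symm
      simp only [Matrix.star_eq_conjTranspose, Matrix.conjTranspose_sub, Matrix.conjTranspose_mul,
        c3, Matrix.conjTranspose_one, sub_mul, mul_sub, one_mul, mul_one, c2, c4, mul_assoc Zᴴ χ,
        ← mul_assoc χ Z, c1, mul_assoc Z, ← mul_assoc Zᴴ Z, u]
      abel)
    fun j i => by
      simp only [Finset.filter_filter, and_comm (a := mb _ = _), hc]
      congr 1
      refine Finset.card_bij' (fun p _ => bar p) (fun p _ => bar p) (fun p hp => ?_)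
        (fun p hp => ?_) (fun p _ => hbar p) fun p _ => hbar p <;>
      · simp only [Finset.mem_filter, Finset.mem_univ, true_and] at hp ⊢
        rw [h2, ← h4 _ x0, ← h1, h3, h4, hp.1, hp.2]
        exact ⟨rfl, rfl⟩
  refine ⟨τ, hτ, ?_⟩
  obtain ⟨a1, a2, a3⟩ := herm hb ha h1 h2 hτ rfl
  set U := blkU Finset.univ b fun p => sgn τ (idx p) with hU
  rw [← hM] at a1 a2 a3
  have cU := chi_comm m Function.injective_id (X := U) fun c c' h => by
    rcases blkU_apply (b := b) Finset.univ (fun p => sgn τ (idx p)) c c' with e | ⟨p, x, x', rfl, rfl⟩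
    · by_cases e' : c = c'
      · rw [e']; rfl
      · exact absurd (e.trans (if_neg e')) h
    · rw [h4, h4]; rfl
  have cA : ∀ s, chi m s * (M * U) = M * U * chi m (s.map inv) := fun s => by
    rw [← mul_assoc, cM, mul_assoc, cU, mul_assoc]; rfl
  choose e e1 e2 e3 e4 using he
  have key : ∀ j, chi m (some (j, true)) * e j = e j ∧ B * (M * U) * e j = e j := fun j => by
    have h := e4 j
    have k1 : ∀ p, chi m (some (j, true)) * iso (b p) = _ := fun p => chi_iso m _ (h4 p)
    set χ := chi m (some (j, true)) with hχ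
    set V := 1 + ∑ p ∈ Finset.univ.filter fun p => mb p = some (j, true),
      iso (b p) * (sgn τ (idx p) - 1) * (iso (b p))ᴴ with hV
    have k2 : (1 - χ) * V = 1 - χ := by
      rw [hV, mul_add, mul_one, Finset.mul_sum, add_eq_left]
      refine Finset.sum_eq_zero fun p hp => ?_
      rw [← Matrix.mul_assoc, ← Matrix.mul_assoc, Matrix.sub_mul, k1,
        if_pos (Finset.mem_filter.mp hp).2]
      simp
    have k3 : χ * V = χ * U := by
      rw [hV, hU, blkU, mul_add, mul_add, Finset.mul_sum, Finset.mul_sum, Finset.sum_filter]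
      congr 1
      refine Finset.sum_congr rfl fun p _ => ?_
      split_ifs with hp
      · rfl
      · rw [← Matrix.mul_assoc, ← Matrix.mul_assoc, k1, if_neg hp]; simp
    rw [sub_mul, k2, mul_assoc _ χ, k3, ← mul_assoc, ← cZ, sub_mul] at h
    have k4 : χ * e j = e j := by
      have := congrArg ((1 - χ) * ·) h
      simp only [mul_sub, sub_mul, one_mul, ← mul_assoc, cc, hχ, sub_self, zero_mul, sub_zero,
        zero_sub] at this
      refine (sub_eq_zero.mp (Setup.two_eq_zero ?_)).symm
      exact this.symm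
    refine ⟨k4, ?_⟩
    rw [sub_mul, one_mul, k4, sub_self, sub_zero] at h
    rw [cZ, mul_assoc _ χ, cU, mul_assoc, mul_assoc] at h
    rwa [id, mul_assoc U, k4, ← mul_assoc M, ← mul_assoc] at h
  obtain ⟨f, f1, f2, f3, f4, f5, f6⟩ := exists_proj_inv a2 b2 (cc none) (cA none).symm (cB none).symm
  let E : Option (J × Bool) → Matrix C C ℂ := fun s =>
    s.elim f fun t => cond t.2 (e t.1) (B * e t.1 * B)
  have E1 : ∀ s, (E s)ᴴ = E s := by
    rintro (_ | ⟨j, _ | _⟩) <;> simp [E, f1, e1, b1, mul_assoc]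
  refine ⟨∑ s, E s, by simp [Matrix.conjTranspose_sum, E1], sum_proj m E E1 ?_ ?_, ?_, ?_⟩
  · rintro (_ | ⟨j, _ | _⟩)
    exacts [f2, by simp [E, mul_assoc, ← mul_assoc B B, b2, ← mul_assoc (e j), e2], e2 j]
  · rintro (_ | ⟨j, _ | _⟩)
    · exact f6
    · change _ * (B * e j * B) = B * e j * B
      rw [← mul_assoc, ← mul_assoc, cB, mul_assoc B]
      exact congrArg (B * · * B) (key j).1
    · exact (key j).1
  · rw [Finset.mul_sum]
    refine Finset.sum_congr rfl ?_
    rintro (_ | ⟨j, _ | _⟩) _
    · change _ * f = f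
      rw [mul_assoc, f4, f5]
    · change _ * (B * e j * B) = B * e j * B
      conv_lhs => rw [← (key j).2]
      simp only [mul_assoc]
      rw [← mul_assoc B B, b2, one_mul, ← mul_assoc M U (e j * B), ← mul_assoc M U, ← mul_assoc (M * U),
        a2, one_mul]
    · exact (key j).2
  · rw [chi_trace m none _ (fun c => a c = c) fun c _ => a3 c] at f3
    have : ∀ j, (B * e j * B).trace = Fintype.card κ := fun j => by
      rw [Matrix.trace_mul_comm, ← mul_assoc, b2, one_mul, e3]
    simp only [Matrix.trace_sum, Matrix.trace_add, Fintype.sum_option, Fintype.sum_prod_type, Fintype.sum_bool, E,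
      Option.elim, cond, this, e3, Complex.add_re, Complex.natCast_re, Complex.mul_re,
      Finset.sum_const, Finset.card_univ, nsmul_eq_mul, Complex.natCast_im, zero_mul]
    linarith

end Vale.Agent.P174
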